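import Mathlib

/-!
The Euler form of two modules.
-/

namespace Vale.Agent.P177.H335

open CategoryTheory

universe u

/-- The module `Ext^i(M, N)`. -/
abbrev ExtM (R : Type u) [CommRing R] (i : ℕ) (M N : Type u) [AddCommGroup M] [Module R M]
    [AddCommGroup N] [Module R N] : Type u :=
  Abelian.Ext (ModuleCat.of R M) (ModuleCat.of R N) i

/-- The alternating sum of the lengths of the `Ext^i(M, N)`, `i < n`. -/
noncomputable def eulerExt (R : Type u) [CommRing R] (n : ℕ) (M N : Type u) [AddCommGroup M]
    [Module R M] [AddCommGroup N] [Module R N] : ℤ :=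
  ∑ i ∈ Finset.range n, (-1) ^ i * ((Module.length R (ExtM R i M N)).toNat : ℤ)

end Vale.Agent.P177.H335
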