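import Mathlib

/-!
Euler characteristics of long exact sequences, for an arbitrary additive length.
-/

namespace Vale.Agent.P177.H335

open Function

universe u

section

variable {R : Type u} [CommRing R]

/-- An additive length function on modules. -/
def AddLen (len : ∀ (X : Type u) [AddCommGroup X] [Module R X], ℕ∞) : Prop :=
  ∀ (X' X X'' : Type u) [AddCommGroup X'] [Module R X'] [AddCommGroup X] [Module R X]
    [AddCommGroup X''] [Module R X''] (f : X' →ₗ[R] X) (g : X →ₗ[R] X''),
    Injective f → Surjective g → Exact f g → len X = len X' + len X''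

theorem addLen_length : AddLen (R := R) (fun X _ _ => Module.length R X) :=
  fun _ _ _ _ _ _ _ _ _ f g hf hg h => Module.length_eq_add_of_exact f g hf hg h

variable {len : ∀ (X : Type u) [AddCommGroup X] [Module R X], ℕ∞}

theorem AddLen.ker_add_range (h : AddLen len) {X Y : Type u} [AddCommGroup X] [Module R X]
    [AddCommGroup Y] [Module R Y] (f : X →ₗ[R] Y) :
    len X = len (LinearMap.ker f) + len (LinearMap.range f) :=
  h _ _ _ (LinearMap.ker f).subtype f.rangeRestrict (Submodule.injective_subtype _)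
    (LinearMap.surjective_rangeRestrict f) (by
      intro x
      rw [Subtype.ext_iff]
      simp)

theorem AddLen.zero (h : AddLen len) (X : Type u) [AddCommGroup X] [Module R X]
    [Subsingleton X] (hX : len X ≠ ⊤) : len X = 0 := by
  have h1 := h X X X LinearMap.id LinearMap.id Function.injective_id Function.surjective_id
    (fun y => ⟨fun _ => ⟨y, rfl⟩, fun _ => Subsingleton.elim _ _⟩)
  have h2 : len X + 0 = len X + len X := by rw [add_zero]; exact h1
  exact ((WithTop.add_left_inj hX).1 h2).symm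

theorem numeric_les {a b c e f g : ℕ → ℤ} (he : e 0 = 0) (h1 : ∀ n, a n = e n + f n)
    (h2 : ∀ n, b n = f n + g n) (h3 : ∀ n, c n = g n + e (n + 1)) (n : ℕ) :
    ∑ j ∈ Finset.range (n + 1), (-1 : ℤ) ^ j * a j + ∑ j ∈ Finset.range (n + 1), (-1 : ℤ) ^ j * c j
      = ∑ j ∈ Finset.range (n + 1), (-1 : ℤ) ^ j * b j + (-1) ^ n * e (n + 1) := by
  induction n with
  | zero =>
    simp only [zero_add, Finset.sum_range_one, pow_zero, one_mul]
    rw [h1, h2, h3, he]; ring
  | succ n ih =>
    rw [Finset.sum_range_succ, Finset.sum_range_succ _ (n + 1), Finset.sum_range_succ _ (n + 1)]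
    rw [h1 (n + 1), h2 (n + 1), h3 (n + 1)]
    linear_combination ih

theorem AddLen.les (h : AddLen len) {A B C : ℕ → Type u} [∀ n, AddCommGroup (A n)]
    [∀ n, Module R (A n)] [∀ n, AddCommGroup (B n)] [∀ n, Module R (B n)]
    [∀ n, AddCommGroup (C n)] [∀ n, Module R (C n)] (a : ∀ n, A n →ₗ[R] B n)
    (b : ∀ n, B n →ₗ[R] C n) (δ : ∀ n, C n →ₗ[R] A (n + 1)) (ha : Injective (a 0))
    (e1 : ∀ n, Exact (a n) (b n)) (e2 : ∀ n, Exact (b n) (δ n))
    (e3 : ∀ n, Exact (δ n) (a (n + 1))) (fA : ∀ n, len (A n) ≠ ⊤) (fB : ∀ n, len (B n) ≠ ⊤)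
    (fC : ∀ n, len (C n) ≠ ⊤) (n : ℕ) (hn : Subsingleton (A (n + 1))) :
    ∑ j ∈ Finset.range (n + 1), (-1 : ℤ) ^ j * ((len (B j)).toNat : ℤ) =
      ∑ j ∈ Finset.range (n + 1), (-1 : ℤ) ^ j * ((len (A j)).toNat : ℤ) +
      ∑ j ∈ Finset.range (n + 1), (-1 : ℤ) ^ j * ((len (C j)).toNat : ℤ) := by
  have key : ∀ {X Y : Type u} [AddCommGroup X] [Module R X] [AddCommGroup Y] [Module R Y]
      (f : X →ₗ[R] Y), len X ≠ ⊤ → ((len X).toNat : ℤ) =
      ((len (LinearMap.ker f)).toNat : ℤ) + ((len (LinearMap.range f)).toNat : ℤ) := by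
    intro X Y _ _ _ _ f hX
    have h1 := h.ker_add_range f
    have h2 : len (LinearMap.ker f) ≠ ⊤ := fun h' => hX (by rw [h1, h', top_add])
    have h3 : len (LinearMap.range f) ≠ ⊤ := fun h' => hX (by rw [h1, h', add_top])
    rw [h1, ENat.toNat_add h2 h3]
    push_cast
    rfl
  have hz : ∀ {X : Type u} [AddCommGroup X] [Module R X] (_ : Subsingleton X), len X ≠ ⊤ →
      ((len X).toNat : ℤ) = 0 := by
    intro X _ _ hX hX'
    rw [h.zero X hX']; rfl
  have hkfin : ∀ {X Y : Type u} [AddCommGroup X] [Module R X] [AddCommGroup Y] [Module R Y]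
      (f : X →ₗ[R] Y), len X ≠ ⊤ → len (LinearMap.ker f) ≠ ⊤ := by
    intro X Y _ _ _ _ f hX h'
    exact hX (by rw [h.ker_add_range f, h', top_add])
  have hrfin : ∀ {X Y : Type u} [AddCommGroup X] [Module R X] [AddCommGroup Y] [Module R Y]
      (f : X →ₗ[R] Y), len X ≠ ⊤ → len (LinearMap.range f) ≠ ⊤ := by
    intro X Y _ _ _ _ f hX h'
    exact hX (by rw [h.ker_add_range f, h', add_top])
  have hnum := numeric_les (n := n)
    (a := fun j => ((len (A j)).toNat : ℤ))
    (b := fun j => ((len (B j)).toNat : ℤ))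
    (c := fun j => ((len (C j)).toNat : ℤ))
    (e := fun j => ((len (LinearMap.ker (a j))).toNat : ℤ))
    (f := fun j => ((len (LinearMap.range (a j))).toNat : ℤ))
    (g := fun j => ((len (LinearMap.range (b j))).toNat : ℤ))
    (by
      have : Subsingleton (LinearMap.ker (a 0)) := by
        rw [LinearMap.ker_eq_bot.2 ha]
        infer_instance
      exact hz this (hkfin _ (fA 0)))
    (fun j => key (a j) (fA j))
    (by
      intro j
      rw [key (b j) (fB j), LinearMap.exact_iff.1 (e1 j)])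
    (by
      intro j
      rw [key (δ j) (fC j), LinearMap.exact_iff.1 (e2 j), LinearMap.exact_iff.1 (e3 j)])
  have h0 : ((len (LinearMap.ker (a (n + 1)))).toNat : ℤ) = 0 :=
    hz inferInstance (hkfin _ (fA _))
  simp only [h0, mul_zero, add_zero] at hnum
  exact hnum.symm

end

end Vale.Agent.P177.H335
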