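import Mathlib
import Vale.Agent.P177.H335.Defs
import Vale.Agent.P177.H335.Les

/-!
The long exact sequence of Ext in the first variable, finiteness and annihilators.
-/

namespace Vale.Agent.P177.H335

open CategoryTheory Function

universe u

section

variable {R : Type u} [CommRing R]

theorem ext_smul_eq_zero_left {M : Type u} [AddCommGroup M] [Module R M] {N : Type u}
    [AddCommGroup N] [Module R N] (a : R) (ha : ∀ m : M, a • m = 0) (i : ℕ)
    (x : ExtM R i M N) : a • x = 0 := by
  have h1 : a • 𝟙 (ModuleCat.of R M) = 0 := by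
    ext m
    exact ha m
  have h2 : a • x = (Abelian.Ext.mk₀ (a • 𝟙 (ModuleCat.of R M))).comp x (zero_add i) := by
    rw [Abelian.Ext.mk₀_smul, Abelian.Ext.smul_comp, Abelian.Ext.mk₀_id_comp]
  rw [h2, h1, Abelian.Ext.mk₀_zero, Abelian.Ext.zero_comp]

theorem ext_smul_eq_zero_right {M : Type u} [AddCommGroup M] [Module R M] {N : Type u}
    [AddCommGroup N] [Module R N] (a : R) (ha : ∀ n : N, a • n = 0) (i : ℕ)
    (x : ExtM R i M N) : a • x = 0 := by
  have h1 : a • 𝟙 (ModuleCat.of R N) = 0 := by
    ext m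
    exact ha m
  rw [Abelian.Ext.smul_eq_comp_mk₀, h1, Abelian.Ext.mk₀_zero, Abelian.Ext.comp_zero]

/-- A short exact sequence of modules. -/
theorem shortExact_mk {M' M M'' : Type u} [AddCommGroup M'] [Module R M'] [AddCommGroup M]
    [Module R M] [AddCommGroup M''] [Module R M''] (f : M' →ₗ[R] M) (g : M →ₗ[R] M'')
    (hf : Injective f) (hg : Surjective g) (h : Exact f g) :
    (ShortComplex.moduleCatMk f g (by ext x; exact (h (f x)).2 ⟨x, rfl⟩) :
      ShortComplex (ModuleCat.{u} R)).ShortExact where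
  exact := by
    rw [ShortComplex.ShortExact.moduleCat_exact_iff_function_exact]
    exact h
  mono_f := (ModuleCat.mono_iff_injective _).2 hf
  epi_g := (ModuleCat.epi_iff_surjective _).2 hg

/-- The long exact sequence of Ext in the first variable. -/
theorem exists_extDelta {M' M M'' : Type u} [AddCommGroup M'] [Module R M'] [AddCommGroup M]
    [Module R M] [AddCommGroup M''] [Module R M''] (f : M' →ₗ[R] M) (g : M →ₗ[R] M'')
    (hf : Injective f) (hg : Surjective g) (h : Exact f g) (N : Type u) [AddCommGroup N]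
    [Module R N] :
    ∃ (a : ∀ n, ExtM R n M'' N →ₗ[R] ExtM R n M N) (b : ∀ n, ExtM R n M N →ₗ[R] ExtM R n M' N)
      (δ : ∀ n, ExtM R n M' N →ₗ[R] ExtM R (n + 1) M'' N),
      Injective (a 0) ∧ (∀ n, Exact (a n) (b n)) ∧ (∀ n, Exact (b n) (δ n)) ∧
      (∀ n, Exact (δ n) (a (n + 1))) := by
  have hS := shortExact_mk f g hf hg h
  refine ⟨fun n => (Abelian.Ext.mk₀ (ModuleCat.ofHom g)).precompOfLinear R _ (zero_add n),
    fun n => (Abelian.Ext.mk₀ (ModuleCat.ofHom f)).precompOfLinear R _ (zero_add n),
    fun n => hS.extClass.precompOfLinear R _ (add_comm 1 n), ?_, ?_, ?_, ?_⟩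
  · have : Epi (ModuleCat.ofHom g) := (ModuleCat.epi_iff_surjective _).2 hg
    exact Abelian.Ext.precomp_mk₀_injective_of_epi (ModuleCat.of R N) (ModuleCat.ofHom g)
  · intro n
    have h1 := Abelian.Ext.contravariant_sequence_exact₂' hS (ModuleCat.of R N) n
    rw [ShortComplex.ab_exact_iff_function_exact] at h1
    exact h1
  · intro n
    have h1 := Abelian.Ext.contravariant_sequence_exact₁' hS (ModuleCat.of R N) n (n + 1)
      (add_comm 1 n)
    rw [ShortComplex.ab_exact_iff_function_exact] at h1
    exact h1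
  · intro n
    have h1 := Abelian.Ext.contravariant_sequence_exact₃' hS (ModuleCat.of R N) n (n + 1)
      (add_comm 1 n)
    rw [ShortComplex.ab_exact_iff_function_exact] at h1
    exact h1

/-- Additivity of the Euler form in the first variable. -/
theorem eulerExt_add {M' M M'' : Type u} [AddCommGroup M'] [Module R M'] [AddCommGroup M]
    [Module R M] [AddCommGroup M''] [Module R M''] (f : M' →ₗ[R] M) (g : M →ₗ[R] M'')
    (hf : Injective f) (hg : Surjective g) (h : Exact f g) (N : Type u) [AddCommGroup N]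
    [Module R N] (n : ℕ) (h1 : ∀ j, Module.length R (ExtM R j M' N) ≠ ⊤)
    (h2 : ∀ j, Module.length R (ExtM R j M N) ≠ ⊤)
    (h3 : ∀ j, Module.length R (ExtM R j M'' N) ≠ ⊤)
    (hv : Subsingleton (ExtM R (n + 1) M'' N)) :
    eulerExt R (n + 1) M N = eulerExt R (n + 1) M' N + eulerExt R (n + 1) M'' N := by
  obtain ⟨a, b, δ, e0, e1, e2, e3⟩ := exists_extDelta f g hf hg h N
  have := addLen_length.les (R := R) a b δ e0 e1 e2 e3 h3 h2 h1 n hv
  unfold eulerExt
  rw [add_comm (∑ i ∈ Finset.range (n + 1), (-1) ^ i * ((Module.length R (ExtM R i M' N)).toNat : ℤ))]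
  exact this

instance ext_projective (M N : Type u) [AddCommGroup M] [Module R M] [Module.Projective R M]
    [AddCommGroup N] [Module R N] (i : ℕ) : Subsingleton (ExtM R (i + 1) M N) := by
  have : Projective (ModuleCat.of R M) := (IsProjective.iff_projective M).1 inferInstance
  exact ⟨fun x y => (Abelian.Ext.eq_zero_of_projective x).trans
    (Abelian.Ext.eq_zero_of_projective y).symm⟩

/-- `Ext` respects isomorphisms in the first variable. -/
theorem extCongr {M M' : Type u} [AddCommGroup M] [Module R M] [AddCommGroup M'] [Module R M']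
    (e : M ≃ₗ[R] M') (N : Type u) [AddCommGroup N] [Module R N] (i : ℕ) :
    Nonempty (ExtM R i M' N ≃ₗ[R] ExtM R i M N) := by
  let p := (Abelian.Ext.mk₀ (ModuleCat.ofHom e.toLinearMap)).precompOfLinear R
    (ModuleCat.of R N) (zero_add i)
  let q := (Abelian.Ext.mk₀ (ModuleCat.ofHom e.symm.toLinearMap)).precompOfLinear R
    (ModuleCat.of R N) (zero_add i)
  refine ⟨LinearEquiv.ofLinearMap p q ?_ ?_⟩
  · apply LinearMap.ext
    intro x
    change (Abelian.Ext.mk₀ (ModuleCat.ofHom e.toLinearMap)).comp
      ((Abelian.Ext.mk₀ (ModuleCat.ofHom e.symm.toLinearMap)).comp x (zero_add i)) (zero_add i) = x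
    rw [Abelian.Ext.mk₀_comp_mk₀_assoc]
    have : ModuleCat.ofHom e.toLinearMap ≫ ModuleCat.ofHom e.symm.toLinearMap =
        𝟙 (ModuleCat.of R M) := by
      ext m
      exact e.symm_apply_apply m
    rw [this, Abelian.Ext.mk₀_id_comp]
  · apply LinearMap.ext
    intro x
    change (Abelian.Ext.mk₀ (ModuleCat.ofHom e.symm.toLinearMap)).comp
      ((Abelian.Ext.mk₀ (ModuleCat.ofHom e.toLinearMap)).comp x (zero_add i)) (zero_add i) = x
    rw [Abelian.Ext.mk₀_comp_mk₀_assoc]
    have : ModuleCat.ofHom e.symm.toLinearMap ≫ ModuleCat.ofHom e.toLinearMap =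
        𝟙 (ModuleCat.of R M') := by
      ext m
      exact e.apply_symm_apply m
    rw [this, Abelian.Ext.mk₀_id_comp]

/-- `Hom` as `Ext^0`. -/
noncomputable def extZero (M N : Type u) [AddCommGroup M] [Module R M] [AddCommGroup N]
    [Module R N] : ExtM R 0 M N ≃ₗ[R] (M →ₗ[R] N) :=
  (Abelian.Ext.linearEquiv₀ (R := R)).trans ModuleCat.homLinearEquiv

theorem ext_finite [IsNoetherianRing R] (i : ℕ) (M N : Type u) [AddCommGroup M] [Module R M]
    [Module.Finite R M] [AddCommGroup N] [Module R N] [Module.Finite R N] :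
    Module.Finite R (ExtM R i M N) := by
  induction i generalizing M with
  | zero =>
    exact Module.Finite.equiv (extZero M N).symm
  | succ i ih =>
    obtain ⟨m, g, hg⟩ := Module.Finite.exists_fin' R M
    have hex : Exact (LinearMap.ker g).subtype g := by intro x; simp
    obtain ⟨a, b, δ, e0, e1, e2, e3⟩ := exists_extDelta (LinearMap.ker g).subtype g
      (Submodule.injective_subtype _) hg hex N
    have hs : Surjective (δ i) := by
      intro x
      exact (e3 i x).1 (Subsingleton.elim _ _)
    have := ih (LinearMap.ker g)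
    exact Module.Finite.of_surjective (δ i) hs

end

end Vale.Agent.P177.H335
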