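import Mathlib
import Vale.Agent.P177.H335.ExtLes

/-!
Ext of a complete intersection with values in the ring.
-/

namespace Vale.Agent.P177.H335

open CategoryTheory Function

universe u

section

variable {R : Type u} [CommRing R]

theorem equiv_of_ker_eq {A X Y : Type u} [AddCommGroup A] [Module R A] [AddCommGroup X]
    [Module R X] [AddCommGroup Y] [Module R Y] (p : A →ₗ[R] X) (q : A →ₗ[R] Y)
    (hp : Surjective p) (hq : Surjective q) (h : LinearMap.ker p = LinearMap.ker q) :
    Nonempty (X ≃ₗ[R] Y) :=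
  ⟨(p.quotKerEquivOfSurjective hp).symm ≪≫ₗ Submodule.quotEquivOfEq _ _ h ≪≫ₗ
    q.quotKerEquivOfSurjective hq⟩

/-- The long exact sequence of Ext for multiplication by an element. -/
theorem exists_extDelta_smul {M M'' : Type u} [AddCommGroup M]
    [Module R M] [AddCommGroup M''] [Module R M''] (z : R) (g : M →ₗ[R] M'')
    (hf : ∀ x : M, z • x = 0 → x = 0) (hg : Surjective g)
    (h : ∀ x, g x = 0 ↔ ∃ y, z • y = x) (N : Type u) [AddCommGroup N]
    [Module R N] :
    ∃ (a : ∀ n, ExtM R n M'' N →ₗ[R] ExtM R n M N)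
      (δ : ∀ n, ExtM R n M N →ₗ[R] ExtM R (n + 1) M'' N),
      Injective (a 0) ∧ (∀ n x, z • x = 0 ↔ x ∈ Set.range (a n)) ∧
      (∀ n x, δ n x = 0 ↔ ∃ y, z • y = x) ∧ (∀ n, Exact (δ n) (a (n + 1))) := by
  have hf' : Injective (LinearMap.lsmul R M z) := by
    rw [injective_iff_map_eq_zero]
    exact hf
  have h' : Exact (LinearMap.lsmul R M z) g := fun x => h x
  have hS := shortExact_mk (LinearMap.lsmul R M z) g hf' hg h'
  have hb : ∀ n (x : ExtM R n M N),
      (Abelian.Ext.mk₀ (ModuleCat.ofHom (LinearMap.lsmul R M z))).comp x (zero_add n) =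
        z • x := by
    intro n x
    have h1 : ModuleCat.ofHom (LinearMap.lsmul R M z) = z • 𝟙 (ModuleCat.of R M) := by
      ext m
      rfl
    rw [h1, Abelian.Ext.mk₀_smul, Abelian.Ext.smul_comp, Abelian.Ext.mk₀_id_comp]
  refine ⟨fun n => (Abelian.Ext.mk₀ (ModuleCat.ofHom g)).precompOfLinear R _ (zero_add n),
    fun n => hS.extClass.precompOfLinear R _ (add_comm 1 n), ?_, ?_, ?_, ?_⟩
  · have : Epi (ModuleCat.ofHom g) := (ModuleCat.epi_iff_surjective _).2 hg
    exact Abelian.Ext.precomp_mk₀_injective_of_epi (ModuleCat.of R N) (ModuleCat.ofHom g)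
  · intro n x
    have h1 := Abelian.Ext.contravariant_sequence_exact₂' hS (ModuleCat.of R N) n
    rw [ShortComplex.ab_exact_iff_function_exact] at h1
    rw [← hb]
    exact h1 x
  · intro n x
    have h1 := Abelian.Ext.contravariant_sequence_exact₁' hS (ModuleCat.of R N) n (n + 1)
      (add_comm 1 n)
    rw [ShortComplex.ab_exact_iff_function_exact] at h1
    refine (h1 x).trans ?_
    constructor
    · rintro ⟨y, rfl⟩
      exact ⟨y, (hb n y).symm⟩
    · rintro ⟨y, rfl⟩
      exact ⟨y, hb n y⟩
  · intro n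
    have h1 := Abelian.Ext.contravariant_sequence_exact₃' hS (ModuleCat.of R N) n (n + 1)
      (add_comm 1 n)
    rw [ShortComplex.ab_exact_iff_function_exact] at h1
    exact h1

/-- One step: from `A` to `A / z A`. -/
theorem ext_ci_step {A A' : Type u} [AddCommGroup A] [Module R A] [AddCommGroup A'] [Module R A']
    (z : R) (g : A →ₗ[R] A') (hf : ∀ x : A, z • x = 0 → x = 0) (hg : Surjective g)
    (h : ∀ x, g x = 0 ↔ ∃ y, z • y = x) (N : Type u) [AddCommGroup N] [Module R N] (k : ℕ)
    (h1 : ∀ j, j ≠ k → Subsingleton (ExtM R j A N)) (h2 : Nonempty (ExtM R k A N ≃ₗ[R] A)) :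
    (∀ j, j ≠ k + 1 → Subsingleton (ExtM R j A' N)) ∧
      Nonempty (ExtM R (k + 1) A' N ≃ₗ[R] A') := by
  obtain ⟨e⟩ := h2
  obtain ⟨a, δ, e0, e1, e2, e3⟩ := exists_extDelta_smul z g hf hg h N
  have hreg : ∀ j (x : ExtM R j A N), z • x = 0 → x = 0 := by
    intro j x hx
    by_cases hj : j = k
    · subst hj
      apply e.injective
      rw [map_zero]
      apply hf
      rw [← map_smul, hx, map_zero]
    · have := h1 j hj
      exact Subsingleton.elim _ _
  constructor
  · intro j hj
    have ha : Injective (a j) := by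
      cases j with
      | zero => exact e0
      | succ i =>
        have hi : i ≠ k := by rintro rfl; exact hj rfl
        have := h1 i hi
        rw [injective_iff_map_eq_zero]
        intro x hx
        obtain ⟨y, rfl⟩ := (e3 i x).1 hx
        rw [Subsingleton.elim y 0, map_zero]
    refine ⟨fun x y => ?_⟩
    have hz : ∀ w : ExtM R j A' N, w = 0 := by
      intro w
      apply ha
      rw [map_zero]
      exact hreg j _ ((e1 j _).2 ⟨w, rfl⟩)
    rw [hz x, hz y]
  · have hs : Surjective (δ k) := by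
      intro x
      have := h1 (k + 1) (by omega)
      exact (e3 k x).1 (Subsingleton.elim _ _)
    refine equiv_of_ker_eq (δ k ∘ₗ e.symm.toLinearMap) g (hs.comp e.symm.surjective) hg ?_
    ext x
    rw [LinearMap.mem_ker, LinearMap.mem_ker, h]
    change δ k (e.symm x) = 0 ↔ _
    rw [e2]
    constructor
    · rintro ⟨y, hy⟩
      exact ⟨e y, by rw [← map_smul, hy, LinearEquiv.apply_symm_apply]⟩
    · rintro ⟨y, rfl⟩
      exact ⟨e.symm y, by rw [map_smul]⟩

/-- Ext of a complete intersection. -/
theorem ext_ci (zs : List R) (h : RingTheory.Sequence.IsWeaklyRegular R zs) :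
    (∀ j, j ≠ zs.length → Subsingleton
      (ExtM R j (R ⧸ (Ideal.ofList zs • ⊤ : Submodule R R)) R)) ∧
    Nonempty (ExtM R zs.length (R ⧸ (Ideal.ofList zs • ⊤ : Submodule R R)) R ≃ₗ[R]
      (R ⧸ (Ideal.ofList zs • ⊤ : Submodule R R))) := by
  induction zs using List.reverseRecOn with
  | nil =>
    have h0 : (Ideal.ofList ([] : List R) • ⊤ : Submodule R R) = ⊥ := by simp
    let e : (R ⧸ (Ideal.ofList ([] : List R) • ⊤ : Submodule R R)) ≃ₗ[R] R :=
      Submodule.quotEquivOfEqBot _ h0
    constructor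
    · rintro (_ | j) hj
      · exact absurd rfl hj
      · obtain ⟨e'⟩ := extCongr e R (j + 1)
        exact e'.symm.injective.subsingleton
    · obtain ⟨e'⟩ := extCongr e R 0
      exact ⟨e'.symm ≪≫ₗ extZero R R ≪≫ₗ LinearMap.ringLmapEquivSelf R R R ≪≫ₗ e.symm⟩
  | append_singleton zs z ih =>
    rw [RingTheory.Sequence.isWeaklyRegular_append_iff] at h
    obtain ⟨ih1, ih2⟩ := ih h.1
    have hz : IsSMulRegular (R ⧸ (Ideal.ofList zs • ⊤ : Submodule R R)) z :=
      (RingTheory.Sequence.isWeaklyRegular_singleton_iff _ _).1 h.2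
    have hle : (Ideal.ofList zs • ⊤ : Submodule R R) ≤ Ideal.ofList (zs ++ [z]) • ⊤ := by
      rw [Ideal.ofList_append]
      exact Submodule.smul_mono_left le_sup_left
    rw [List.length_append, List.length_singleton]
    refine ext_ci_step z (Submodule.factor hle) ?_ (Submodule.factor_surjective hle) ?_ R
      zs.length ih1 ih2
    · intro x hx
      exact hz (hx.trans (smul_zero z).symm)
    · intro x
      obtain ⟨r, rfl⟩ := Submodule.mkQ_surjective _ x
      change Submodule.Quotient.mk r = 0 ↔ _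
      rw [Submodule.Quotient.mk_eq_zero]
      have hI : ∀ J : Ideal R, (J • ⊤ : Submodule R R) = J := fun J => by
        rw [smul_eq_mul, Ideal.mul_top]
      rw [hI, Ideal.ofList_append, Ideal.ofList_singleton, Submodule.mem_sup]
      constructor
      · rintro ⟨y, hy, w, hw, rfl⟩
        obtain ⟨c, rfl⟩ := Ideal.mem_span_singleton'.1 hw
        refine ⟨(Submodule.mkQ _) c, ?_⟩
        rw [← map_smul]
        symm
        rw [← sub_eq_zero, ← map_sub]
        refine (Submodule.Quotient.mk_eq_zero _).2 ?_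
        rw [hI]
        have : y + c * z - z • c = y := by rw [smul_eq_mul]; ring
        rw [this]
        exact hy
      · rintro ⟨y, hy⟩
        obtain ⟨c, rfl⟩ := Submodule.mkQ_surjective _ y
        rw [← map_smul, ← sub_eq_zero, ← map_sub] at hy
        have hy' := (Submodule.Quotient.mk_eq_zero _).1 hy
        rw [hI] at hy'
        refine ⟨r - z • c, ?_, c * z, Ideal.mem_span_singleton'.2 ⟨c, rfl⟩, ?_⟩
        · rw [← neg_sub]
          exact (Ideal.neg_mem_iff _).2 hy'
        · rw [smul_eq_mul]; ring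

end

end Vale.Agent.P177.H335
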