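import Mathlib
import Vale.Agent.P177.H335.ExtCi

/-!
Ext by projective resolutions.
-/

namespace Vale.Agent.P177.H335

open CategoryTheory Function

universe u

section

variable {R : Type u} [CommRing R]

theorem hom_equiv_ker {M N F0 F1 C0 C1 : Type u} [AddCommGroup M] [Module R M]
    [AddCommGroup N] [Module R N] [AddCommGroup F0] [Module R F0] [AddCommGroup F1] [Module R F1]
    [AddCommGroup C0] [Module R C0] [AddCommGroup C1] [Module R C1] (d : F1 →ₗ[R] F0)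
    (ε : F0 →ₗ[R] M) (hε : Surjective ε) (h0 : Exact d ε) (D : C0 →ₗ[R] C1)
    (e0 : C0 ≃ₗ[R] (F0 →ₗ[R] N)) (e1 : C1 ≃ₗ[R] (F1 →ₗ[R] N))
    (he : ∀ x, e1 (D x) = (e0 x) ∘ₗ d) :
    ∃ φ : (M →ₗ[R] N) ≃ₗ[R] LinearMap.ker D, ∀ f, e0 (φ f).1 = f ∘ₗ ε := by
  let p : (M →ₗ[R] N) →ₗ[R] C0 := e0.symm.toLinearMap ∘ₗ LinearMap.lcomp R N ε
  have hp : ∀ f, e0 (p f) = f ∘ₗ ε := by
    intro f
    change e0 (e0.symm (f ∘ₗ ε)) = _
    rw [LinearEquiv.apply_symm_apply]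
  have hk : ∀ f, p f ∈ LinearMap.ker D := by
    intro f
    rw [LinearMap.mem_ker]
    apply e1.injective
    rw [he, hp, map_zero]
    ext x
    change f (ε (d x)) = 0
    rw [(h0 _).2 ⟨x, rfl⟩, map_zero]
  refine ⟨LinearEquiv.ofBijective (p.codRestrict _ hk) ⟨?_, ?_⟩, fun f => hp f⟩
  · rw [injective_iff_map_eq_zero]
    intro f hf
    have h1 : p f = 0 := congrArg Subtype.val hf
    have h2 := hp f
    rw [h1, map_zero] at h2
    ext x
    obtain ⟨y, rfl⟩ := hε x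
    exact (LinearMap.congr_fun h2 y).symm
  · rintro ⟨c, hc⟩
    rw [LinearMap.mem_ker] at hc
    have h1 : (e0 c) ∘ₗ d = 0 := by rw [← he, hc, map_zero]
    have h2 : LinearMap.ker ε ≤ LinearMap.ker (e0 c) := by
      intro x hx
      obtain ⟨y, rfl⟩ := (h0 x).1 hx
      exact LinearMap.congr_fun h1 y
    let f : M →ₗ[R] N := (LinearMap.ker ε).liftQ (e0 c) h2 ∘ₗ
      (ε.quotKerEquivOfSurjective hε).symm.toLinearMap
    have hf : f ∘ₗ ε = e0 c := by
      ext x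
      change (LinearMap.ker ε).liftQ (e0 c) h2 ((ε.quotKerEquivOfSurjective hε).symm (ε x)) = _
      have h3 : (ε.quotKerEquivOfSurjective hε).symm (ε x) = (LinearMap.ker ε).mkQ x := by
        rw [LinearEquiv.symm_apply_eq]
        rfl
      rw [h3]
      rfl
    refine ⟨f, Subtype.ext ?_⟩
    apply e0.injective
    change e0 (p f) = e0 c
    rw [hp, hf]

/-- `Ext^1` as a quotient. -/
theorem ext_one_aux {M N F0 F1 F2 C0 C1 C2 : Type u} [AddCommGroup M] [Module R M]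
    [AddCommGroup N] [Module R N] [AddCommGroup F0] [Module R F0] [AddCommGroup F1] [Module R F1]
    [AddCommGroup F2] [Module R F2] [AddCommGroup C2] [Module R C2]
    [AddCommGroup C0] [Module R C0] [AddCommGroup C1] [Module R C1] [Module.Projective R F0]
    (d0 : F1 →ₗ[R] F0) (d1 : F2 →ₗ[R] F1)
    (ε : F0 →ₗ[R] M) (hε : Surjective ε) (h0 : Exact d0 ε) (h1 : Exact d1 d0)
    (D0 : C0 →ₗ[R] C1) (D1 : C1 →ₗ[R] C2)
    (e0 : C0 ≃ₗ[R] (F0 →ₗ[R] N)) (e1 : C1 ≃ₗ[R] (F1 →ₗ[R] N)) (e2 : C2 ≃ₗ[R] (F2 →ₗ[R] N))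
    (he0 : ∀ x, e1 (D0 x) = (e0 x) ∘ₗ d0) (he1 : ∀ x, e2 (D1 x) = (e1 x) ∘ₗ d1) :
    Nonempty (ExtM R 1 M N ≃ₗ[R] (LinearMap.ker D1 ⧸
      (LinearMap.range D0).comap (LinearMap.ker D1).subtype)) := by
  let K := LinearMap.ker ε
  have hex : Exact K.subtype ε := by intro x; simp [K]
  -- the augmentation `F1 → K`
  let η : F1 →ₗ[R] K := d0.codRestrict K (fun x => (h0 _).2 ⟨x, rfl⟩)
  have hη : Surjective η := by
    rintro ⟨x, hx⟩
    obtain ⟨y, rfl⟩ := (h0 x).1 hx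
    exact ⟨y, rfl⟩
  have hηex : Exact d1 η := by
    intro x
    rw [← h1 x]
    exact ⟨fun h => congrArg Subtype.val h, fun h => Subtype.ext h⟩
  obtain ⟨φ, hφ⟩ := hom_equiv_ker d1 η hη hηex D1 e1 e2 he1
  have hS := shortExact_mk K.subtype ε (Submodule.injective_subtype _) hε hex
  -- the connecting map
  let δ : ExtM R 0 K N →ₗ[R] ExtM R 1 M N :=
    hS.extClass.precompOfLinear R (ModuleCat.of R N) (add_zero 1)
  have hδs : Surjective δ := by
    intro x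
    obtain ⟨y, hy⟩ := Abelian.Ext.contravariant_sequence_exact₃ hS (ModuleCat.of R N) x
      (Subsingleton.elim (α := ExtM R 1 F0 N) _ _) (add_zero 1)
    exact ⟨y, hy⟩
  have hδk : ∀ x, δ x = 0 ↔ ∃ y : ExtM R 0 F0 N,
      (Abelian.Ext.mk₀ (ModuleCat.ofHom K.subtype)).comp y (zero_add 0) = x := by
    have h2 := Abelian.Ext.contravariant_sequence_exact₁' hS (ModuleCat.of R N) 0 1 (add_zero 1)
    rw [ShortComplex.ab_exact_iff_function_exact] at h2
    exact fun x => h2 x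
  have hz : ∀ y : ExtM R 0 F0 N, extZero K N
      ((Abelian.Ext.mk₀ (ModuleCat.ofHom K.subtype)).comp y (zero_add 0)) =
        (extZero F0 N y) ∘ₗ K.subtype := by
    intro y
    obtain ⟨g, rfl⟩ := (extZero F0 N).symm.surjective y
    rw [LinearEquiv.apply_symm_apply]
    apply (extZero K N).symm.injective
    rw [LinearEquiv.symm_apply_apply]
    change (Abelian.Ext.mk₀ (ModuleCat.ofHom K.subtype)).comp
      (Abelian.Ext.mk₀ (ModuleCat.ofHom g)) (zero_add 0) =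
      Abelian.Ext.mk₀ (ModuleCat.ofHom (g ∘ₗ K.subtype))
    rw [Abelian.Ext.mk₀_comp_mk₀]
    rfl
  let q : LinearMap.ker D1 →ₗ[R] ExtM R 1 M N :=
    δ ∘ₗ (extZero K N).symm.toLinearMap ∘ₗ φ.symm.toLinearMap
  have hq : Surjective q := hδs.comp ((extZero K N).symm.surjective.comp φ.symm.surjective)
  refine equiv_of_ker_eq q (Submodule.mkQ _) hq (Submodule.mkQ_surjective _) ?_
  rw [Submodule.ker_mkQ]
  ext c
  rw [LinearMap.mem_ker, Submodule.mem_comap]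
  change δ ((extZero K N).symm (φ.symm c)) = 0 ↔ c.1 ∈ LinearMap.range D0
  rw [hδk]
  obtain ⟨f, rfl⟩ := φ.surjective c
  rw [LinearEquiv.symm_apply_apply]
  constructor
  · rintro ⟨y, hy⟩
    have h3 := hz y
    rw [hy, LinearEquiv.apply_symm_apply] at h3
    refine ⟨e0.symm (extZero F0 N y), ?_⟩
    apply e1.injective
    rw [he0, LinearEquiv.apply_symm_apply, hφ, h3]
    rfl
  · rintro ⟨c, hc⟩
    refine ⟨(extZero F0 N).symm (e0 c), ?_⟩
    apply (extZero K N).injective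
    rw [hz, LinearEquiv.apply_symm_apply, LinearEquiv.apply_symm_apply]
    have h4 : (f ∘ₗ η) = (e0 c) ∘ₗ d0 := by rw [← hφ, ← he0, hc]
    ext x
    obtain ⟨y, rfl⟩ := hη x
    exact (LinearMap.congr_fun h4 y).symm

/-- Dimension shifting. -/
theorem ext_shift {M N F K : Type u} [AddCommGroup M] [Module R M] [AddCommGroup N] [Module R N]
    [AddCommGroup F] [Module R F] [AddCommGroup K] [Module R K] [Module.Projective R F]
    (f : K →ₗ[R] F) (g : F →ₗ[R] M) (hf : Injective f) (hg : Surjective g) (h : Exact f g)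
    (j : ℕ) : Nonempty (ExtM R (j + 2) M N ≃ₗ[R] ExtM R (j + 1) K N) := by
  obtain ⟨a, b, δ, e0, e1, e2, e3⟩ := exists_extDelta f g hf hg h N
  refine ⟨(LinearEquiv.ofBijective (δ (j + 1)) ⟨?_, ?_⟩).symm⟩
  · rw [injective_iff_map_eq_zero]
    intro x hx
    obtain ⟨y, rfl⟩ := (e2 (j + 1) x).1 hx
    rw [Subsingleton.elim y 0, map_zero]
  · intro x
    exact (e3 (j + 1) x).1 (Subsingleton.elim _ _)

/-- **Ext by a projective resolution.** -/
theorem ext_identify {N : Type u} [AddCommGroup N] [Module R N] (j : ℕ) :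
    ∀ {M : Type u} [AddCommGroup M] [Module R M]
    (F : ℕ → Type u) [∀ j, AddCommGroup (F j)] [∀ j, Module R (F j)]
    [∀ j, Module.Projective R (F j)] (d : ∀ j, F (j + 1) →ₗ[R] F j) (ε : F 0 →ₗ[R] M)
    (_ : Surjective ε) (_ : Exact (d 0) ε) (_ : ∀ j, Exact (d (j + 1)) (d j))
    (C : ℕ → Type u) [∀ j, AddCommGroup (C j)] [∀ j, Module R (C j)]
    (D : ∀ j, C j →ₗ[R] C (j + 1)) (e : ∀ j, C j ≃ₗ[R] (F j →ₗ[R] N))
    (_ : ∀ j x, e (j + 1) (D j x) = (e j x) ∘ₗ (d j)),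
    Nonempty (ExtM R (j + 1) M N ≃ₗ[R] (LinearMap.ker (D (j + 1)) ⧸
      (LinearMap.range (D j)).comap (LinearMap.ker (D (j + 1))).subtype)) := by
  induction j with
  | zero =>
    intro M _ _ F _ _ _ d ε hε h0 hd C _ _ D e he
    exact ext_one_aux (d 0) (d 1) ε hε h0 (hd 0) (D 0) (D 1) (e 0) (e 1) (e 2) (he 0) (he 1)
  | succ j ih =>
    intro M _ _ F _ _ _ d ε hε h0 hd C _ _ D e he
    have hex : Exact (LinearMap.ker ε).subtype ε := by intro x; simp
    obtain ⟨e1⟩ := ext_shift (N := N) (LinearMap.ker ε).subtype ε (Submodule.injective_subtype _)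
      hε hex j
    let η : F 1 →ₗ[R] LinearMap.ker ε :=
      (d 0).codRestrict (LinearMap.ker ε) (fun x => (h0 _).2 ⟨x, rfl⟩)
    have hη : Surjective η := by
      rintro ⟨x, hx⟩
      obtain ⟨y, rfl⟩ := (h0 x).1 hx
      exact ⟨y, rfl⟩
    have hηex : Exact (d 1) η := by
      intro x
      rw [← hd 0 x]
      exact ⟨fun h => congrArg Subtype.val h, fun h => Subtype.ext h⟩
    obtain ⟨e2⟩ := ih (M := LinearMap.ker ε) (fun i => F (i + 1)) (fun i => d (i + 1)) η hη hηex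
      (fun i => hd (i + 1)) (fun i => C (i + 1)) (fun i => D (i + 1)) (fun i => e (i + 1))
      (fun i => he (i + 1))
    exact ⟨e1 ≪≫ₗ e2⟩

/-- `Ext^0` by a resolution. -/
theorem ext_identify_zero {M N F0 F1 C0 C1 : Type u} [AddCommGroup M] [Module R M]
    [AddCommGroup N] [Module R N] [AddCommGroup F0] [Module R F0] [AddCommGroup F1] [Module R F1]
    [AddCommGroup C0] [Module R C0] [AddCommGroup C1] [Module R C1] (d : F1 →ₗ[R] F0)
    (ε : F0 →ₗ[R] M) (hε : Surjective ε) (h0 : Exact d ε) (D : C0 →ₗ[R] C1)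
    (e0 : C0 ≃ₗ[R] (F0 →ₗ[R] N)) (e1 : C1 ≃ₗ[R] (F1 →ₗ[R] N))
    (he : ∀ x, e1 (D x) = (e0 x) ∘ₗ d) : Nonempty (ExtM R 0 M N ≃ₗ[R] LinearMap.ker D) := by
  obtain ⟨φ, -⟩ := hom_equiv_ker d ε hε h0 D e0 e1 he
  exact ⟨extZero M N ≪≫ₗ φ⟩

end

end Vale.Agent.P177.H335
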