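import Mathlib
import Vale.Agent.P177.Bd4.B5

/-!
Euler characteristics of complexes: the telescoping argument.
-/

namespace Vale.Agent.P177.H335

open CategoryTheory TensorProduct Function IsLocalRing Vale.Agent.P177

universe u

/-- The alternating sum of the lengths of `Tor_1, …, Tor_n`. -/
noncomputable def posTor (R : Type u) [CommRing R] (n : ℕ) (X N : Type u) [AddCommGroup X]
    [Module R X] [AddCommGroup N] [Module R N] : ℤ :=
  ∑ k ∈ Finset.range n, (-1) ^ (k + 1) * ((Module.length R (TorM R (k + 1) X N)).toNat : ℤ)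

theorem numeric_tele {a b t d f g : ℕ → ℤ} {h : ℤ} (h1 : ∀ k, a k = d k + f k)
    (h2 : ∀ k, b k = f (k + 1) + g (k + 1)) (h3 : ∀ k, t (k + 1) = g (k + 1) + d k)
    (h4 : h = f 0 + t 0) (n : ℕ) :
    ∑ k ∈ Finset.range (n + 1), (-1 : ℤ) ^ k * a k =
      h + ∑ k ∈ Finset.range n, (-1 : ℤ) ^ (k + 1) * b k +
        ∑ k ∈ Finset.range n, (-1 : ℤ) ^ (k + 1) * t k + (-1) ^ n * (d n - t n) := by
  induction n with
  | zero =>
    simp only [zero_add, Finset.sum_range_one, pow_zero, one_mul, Finset.sum_range_zero, add_zero]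
    rw [h1, h4]; ring
  | succ n ih =>
    rw [Finset.sum_range_succ, ih, Finset.sum_range_succ _ n, Finset.sum_range_succ _ n]
    have e1 := h1 (n + 1)
    have e2 := h2 n
    have e3 := h3 n
    rw [e1, e2]
    linear_combination -(-1 : ℤ) ^ n * e3

section

variable {R : Type u} [CommRing R]

theorem ne_top_of_injective' {X Y : Type u} [AddCommGroup X] [Module R X] [AddCommGroup Y]
    [Module R Y] (f : X →ₗ[R] Y) (hf : Injective f) (h : Module.length R Y ≠ ⊤) :
    Module.length R X ≠ ⊤ :=
  ne_top_of_le_ne_top h (Module.length_le_of_injective f hf)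

theorem ne_top_of_surjective' {X Y : Type u} [AddCommGroup X] [Module R X] [AddCommGroup Y]
    [Module R Y] (f : X →ₗ[R] Y) (hf : Surjective f) (h : Module.length R X ≠ ⊤) :
    Module.length R Y ≠ ⊤ :=
  ne_top_of_le_ne_top h (Module.length_le_of_surjective f hf)

/-- The step of the telescoping argument. -/
theorem tele_step {T F : Type u} [AddCommGroup T] [Module R T] [AddCommGroup F] [Module R F]
    [Module.Flat R F] (φ : T →ₗ[R] F) (N : Type u) [AddCommGroup N] [Module R N]
    (hH : ∀ k, Module.length R (TorM R k (LinearMap.ker φ) N) ≠ ⊤)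
    (hT' : ∀ k, Module.length R (TorM R (k + 1) (F ⧸ LinearMap.range φ) N) ≠ ⊤) (n : ℕ)
    (hv1 : Subsingleton (TorM R (n + 1) (F ⧸ LinearMap.range φ) N))
    (hv2 : Subsingleton (TorM R (n + 2) (F ⧸ LinearMap.range φ) N)) :
    (∀ k, Module.length R (TorM R (k + 1) T N) ≠ ⊤) ∧
    Module.length R (LinearMap.ker (φ.rTensor N)) ≠ ⊤ ∧
    eulerTor R (n + 1) (LinearMap.ker φ) N =
      ((Module.length R (LinearMap.ker (φ.rTensor N))).toNat : ℤ) + posTor R n T N +
        posTor R n (F ⧸ LinearMap.range φ) N := by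
  set B := LinearMap.range φ with hB
  have hex : Exact (LinearMap.ker φ).subtype φ.rangeRestrict := by
    intro x
    rw [Subtype.ext_iff]
    simp
  obtain ⟨δ, e1, e2, e3⟩ := exists_torDelta (LinearMap.ker φ).subtype φ.rangeRestrict
    (Submodule.injective_subtype _) (LinearMap.surjective_rangeRestrict φ) hex N
  have hexB : Exact B.subtype B.mkQ := LinearMap.exact_subtype_mkQ B
  have hsh : ∀ k, Nonempty (TorM R (k + 2) (F ⧸ B) N ≃ₗ[R] TorM R (k + 1) B N) := fun k =>
    tor_shift B.subtype B.mkQ (Submodule.injective_subtype _) (Submodule.mkQ_surjective _) hexB N k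
  obtain ⟨e0⟩ := tor_one B.subtype B.mkQ (Submodule.injective_subtype _)
    (Submodule.mkQ_surjective _) hexB N
  -- finiteness of Tor of B
  have hBfin : ∀ k, Module.length R (TorM R (k + 1) B N) ≠ ⊤ := by
    intro k
    obtain ⟨e⟩ := hsh k
    rw [← e.length_eq]
    exact hT' (k + 1)
  have hTlen : ∀ k, Module.length R (TorM R k T N) =
      Module.length R (LinearMap.range (torMap k (LinearMap.ker φ).subtype N)) +
      Module.length R (LinearMap.range (torMap k φ.rangeRestrict N)) := by
    intro k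
    rw [length_ker_add_range (torMap k φ.rangeRestrict N), LinearMap.exact_iff.1 (e3 k)]
  have hf : ∀ k, Module.length R (LinearMap.range (torMap k (LinearMap.ker φ).subtype N)) ≠ ⊤ :=
    fun k => ne_top_of_surjective' _ (LinearMap.surjective_rangeRestrict _) (hH k)
  have hg : ∀ k, Module.length R (LinearMap.range (torMap (k + 1) φ.rangeRestrict N)) ≠ ⊤ :=
    fun k => ne_top_of_injective' _ (Submodule.injective_subtype _) (hBfin k)
  have hd : ∀ k, Module.length R (LinearMap.range (δ k)) ≠ ⊤ :=
    fun k => ne_top_of_surjective' _ (LinearMap.surjective_rangeRestrict _) (hBfin k)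
  have hT : ∀ k, Module.length R (TorM R (k + 1) T N) ≠ ⊤ := by
    intro k
    rw [hTlen]
    exact WithTop.add_ne_top.2 ⟨hf _, hg _⟩
  -- the kernel
  have hker : Module.length R (LinearMap.ker (φ.rTensor N)) =
      Module.length R (LinearMap.range (torMap 0 (LinearMap.ker φ).subtype N)) +
      Module.length R (TorM R 1 (F ⧸ B) N) := by
    have hcomp : φ.rTensor N = B.subtype.rTensor N ∘ₗ φ.rangeRestrict.rTensor N := by
      rw [← LinearMap.rTensor_comp]
      rfl
    rw [hcomp, length_ker_comp _ _ (LinearMap.rTensor_surjective N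
      (LinearMap.surjective_rangeRestrict φ))]
    refine congrArg₂ (· + ·) ?_ e0.length_eq.symm
    have h1 : LinearMap.ker (φ.rangeRestrict.rTensor N) =
        LinearMap.range ((LinearMap.ker φ).subtype.rTensor N) :=
      LinearMap.exact_iff.1 (rTensor_exact N hex (LinearMap.surjective_rangeRestrict φ))
    rw [h1]
    have h2 : LinearMap.range ((LinearMap.ker φ).subtype.rTensor N) =
        (LinearMap.range (torMap 0 (LinearMap.ker φ).subtype N)).map
          (torZero T N).toLinearMap := by
      ext y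
      constructor
      · rintro ⟨x, rfl⟩
        refine ⟨torMap 0 (LinearMap.ker φ).subtype N ((torZero _ N).symm x), ⟨_, rfl⟩, ?_⟩
        change torZero T N (torMap 0 (LinearMap.ker φ).subtype N ((torZero _ N).symm x)) = _
        rw [torZero_naturality, LinearEquiv.apply_symm_apply]
      · rintro ⟨_, ⟨x, rfl⟩, rfl⟩
        exact ⟨torZero _ N x, (torZero_naturality _ _).symm⟩
    rw [h2]
    exact ((torZero T N).submoduleMap _).length_eq.symm
  have hkerfin : Module.length R (LinearMap.ker (φ.rTensor N)) ≠ ⊤ := by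
    rw [hker]
    exact WithTop.add_ne_top.2 ⟨hf 0, hT' 0⟩
  refine ⟨hT, hkerfin, ?_⟩
  have h3 : ∀ k, Module.length R (TorM R (k + 2) (F ⧸ B) N) =
      Module.length R (LinearMap.range (torMap (k + 1) φ.rangeRestrict N)) +
      Module.length R (LinearMap.range (δ k)) := by
    intro k
    obtain ⟨e⟩ := hsh k
    rw [e.length_eq, length_ker_add_range (δ k), LinearMap.exact_iff.1 (e1 k)]
  have hnum := numeric_tele (n := n) (h := ((Module.length R (LinearMap.ker (φ.rTensor N))).toNat : ℤ))
    (a := fun k => ((Module.length R (TorM R k (LinearMap.ker φ) N)).toNat : ℤ))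
    (b := fun k => ((Module.length R (TorM R (k + 1) T N)).toNat : ℤ))
    (t := fun k => ((Module.length R (TorM R (k + 1) (F ⧸ B) N)).toNat : ℤ))
    (d := fun k => ((Module.length R (LinearMap.range (δ k))).toNat : ℤ))
    (f := fun k => ((Module.length R
      (LinearMap.range (torMap k (LinearMap.ker φ).subtype N))).toNat : ℤ))
    (g := fun k => ((Module.length R (LinearMap.range (torMap k φ.rangeRestrict N))).toNat : ℤ))
    (by
      intro k
      rw [toNat_length_ker_add_range (torMap k (LinearMap.ker φ).subtype N) (hH k),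
        LinearMap.exact_iff.1 (e2 k)])
    (by
      intro k
      rw [hTlen, ENat.toNat_add (hf _) (hg _)]
      push_cast
      rfl)
    (by
      intro k
      change ((Module.length R (TorM R (k + 2) (F ⧸ B) N)).toNat : ℤ) = _
      rw [h3, ENat.toNat_add (hg _) (hd _)]
      push_cast
      rfl)
    (by
      rw [hker, ENat.toNat_add (hf _) (hT' 0)]
      push_cast
      rfl)
  have hz1 : ((Module.length R (TorM R (n + 1) (F ⧸ B) N)).toNat : ℤ) = 0 := by
    rw [Module.length_eq_zero]; simp
  have hz2 : ((Module.length R (LinearMap.range (δ n))).toNat : ℤ) = 0 := by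
    obtain ⟨e⟩ := hsh n
    have : Subsingleton (TorM R (n + 1) B N) := e.symm.injective.subsingleton
    have : Subsingleton (LinearMap.range (δ n)) :=
      (LinearMap.surjective_rangeRestrict (δ n)).subsingleton
    rw [Module.length_eq_zero]; simp
  unfold eulerTor posTor
  rw [hnum, hz1, hz2]
  ring

/-- The step of the telescoping argument, for a submodule equal to the range. -/
theorem tele_step' {T F : Type u} [AddCommGroup T] [Module R T] [AddCommGroup F] [Module R F]
    [Module.Flat R F] (φ : T →ₗ[R] F) (B : Submodule R F) (hB : LinearMap.range φ = B)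
    (N : Type u) [AddCommGroup N] [Module R N]
    (hH : ∀ k, Module.length R (TorM R k (LinearMap.ker φ) N) ≠ ⊤)
    (hT' : ∀ k, Module.length R (TorM R (k + 1) (F ⧸ B) N) ≠ ⊤) (n : ℕ)
    (hv1 : Subsingleton (TorM R (n + 1) (F ⧸ B) N))
    (hv2 : Subsingleton (TorM R (n + 2) (F ⧸ B) N)) :
    (∀ k, Module.length R (TorM R (k + 1) T N) ≠ ⊤) ∧
    Module.length R (LinearMap.ker (φ.rTensor N)) ≠ ⊤ ∧
    eulerTor R (n + 1) (LinearMap.ker φ) N =
      ((Module.length R (LinearMap.ker (φ.rTensor N))).toNat : ℤ) + posTor R n T N +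
        posTor R n (F ⧸ B) N := by
  subst hB
  exact tele_step φ N hH hT' n hv1 hv2

theorem posTor_of_flat (n : ℕ) (X N : Type u) [AddCommGroup X] [Module R X] [AddCommGroup N]
    [Module R N] [Module.Flat R X] : posTor R n X N = 0 := by
  unfold posTor
  refine Finset.sum_eq_zero fun k _ => ?_
  have : Subsingleton (TorM R (k + 1) X N) := tor_subsingleton_of_flat k
  rw [Module.length_eq_zero]
  simp

theorem telescope (S h x : ℕ → ℤ) (hx : ∀ j, x j = h j + S j + S (j + 1)) (r : ℕ) :
    ∑ j ∈ Finset.range (r + 1), (-1 : ℤ) ^ j * x j =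
      ∑ j ∈ Finset.range (r + 1), (-1 : ℤ) ^ j * h j + S 0 + (-1) ^ r * S (r + 1) := by
  induction r with
  | zero => simp [hx]
  | succ r ih =>
    rw [Finset.sum_range_succ, ih, Finset.sum_range_succ _ (r + 1), hx]
    ring

section complex

variable {C : ℕ → Type u} [∀ j, AddCommGroup (C j)] [∀ j, Module R (C j)]

/-- The boundaries of a complex. -/
def Bd (D : ∀ j, C j →ₗ[R] C (j + 1)) : ∀ j, Submodule R (C j)
  | 0 => ⊥
  | j + 1 => LinearMap.range (D j)

theorem Bd_le (D : ∀ j, C j →ₗ[R] C (j + 1)) (hD : ∀ j x, D (j + 1) (D j x) = 0) (j : ℕ) :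
    Bd D j ≤ LinearMap.ker (D j) := by
  cases j with
  | zero => exact bot_le
  | succ j =>
    rintro _ ⟨x, rfl⟩
    exact hD j x

/-- The map from the cokernel of a differential to the next term. -/
def Dbar (D : ∀ j, C j →ₗ[R] C (j + 1)) (hD : ∀ j x, D (j + 1) (D j x) = 0) (j : ℕ) :
    (C j ⧸ Bd D j) →ₗ[R] C (j + 1) :=
  (Bd D j).liftQ (D j) (Bd_le D hD j)

theorem range_Dbar (D : ∀ j, C j →ₗ[R] C (j + 1)) (hD : ∀ j x, D (j + 1) (D j x) = 0) (j : ℕ) :
    LinearMap.range (Dbar D hD j) = Bd D (j + 1) :=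
  Submodule.range_liftQ _ _ _

/-- **The Euler characteristic of a tensor product of a complex with a module.** -/
theorem tele_complex [∀ j, Module.Flat R (C j)] (D : ∀ j, C j →ₗ[R] C (j + 1))
    (hD : ∀ j x, D (j + 1) (D j x) = 0) (r : ℕ) (hr : ∀ j, r < j → Subsingleton (C j))
    (N : Type u) [AddCommGroup N] [Module R N] (n : ℕ)
    (hH : ∀ j k, Module.length R (TorM R k (LinearMap.ker (Dbar D hD j)) N) ≠ ⊤)
    (hv : ∀ j k, n < k → Subsingleton (TorM R k (C j ⧸ Bd D j) N)) :
    (∀ j, Module.length R (LinearMap.ker ((Dbar D hD j).rTensor N)) ≠ ⊤) ∧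
    ∑ j ∈ Finset.range (r + 1),
      (-1 : ℤ) ^ j * ((Module.length R (LinearMap.ker ((Dbar D hD j).rTensor N))).toNat : ℤ) =
    ∑ j ∈ Finset.range (r + 1),
      (-1 : ℤ) ^ j * eulerTor R (n + 1) (LinearMap.ker (Dbar D hD j)) N := by
  have hbase : ∀ j, r < j → Subsingleton (C j ⧸ Bd D j) := by
    intro j hj
    have := hr j hj
    infer_instance
  have hfin : ∀ i j, r + 1 ≤ j + i → ∀ k, Module.length R (TorM R (k + 1) (C j ⧸ Bd D j) N) ≠ ⊤ := by
    intro i
    induction i with
    | zero =>
      intro j hj k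
      have := hbase j (by omega)
      have : Subsingleton (TorM R (k + 1) (C j ⧸ Bd D j) N) := tor_subsingleton_of_flat k
      rw [Module.length_eq_zero]
      exact ENat.zero_ne_top
    | succ i ih =>
      intro j hj
      exact (tele_step' (Dbar D hD j) (Bd D (j + 1)) (range_Dbar D hD j) N (hH j)
        (ih (j + 1) (by omega)) n (hv (j + 1) (n + 1) (by omega))
        (hv (j + 1) (n + 2) (by omega))).1
  have hfin' : ∀ j k, Module.length R (TorM R (k + 1) (C j ⧸ Bd D j) N) ≠ ⊤ :=
    fun j => hfin (r + 1) j (by omega)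
  have hstep := fun j => tele_step' (Dbar D hD j) (Bd D (j + 1)) (range_Dbar D hD j) N (hH j)
        (hfin' (j + 1)) n (hv (j + 1) (n + 1) (by omega)) (hv (j + 1) (n + 2) (by omega))
  refine ⟨fun j => (hstep j).2.1, ?_⟩
  have hx := telescope (fun j => posTor R n (C j ⧸ Bd D j) N)
    (fun j => ((Module.length R (LinearMap.ker ((Dbar D hD j).rTensor N))).toNat : ℤ))
    (fun j => eulerTor R (n + 1) (LinearMap.ker (Dbar D hD j)) N)
    (fun j => (hstep j).2.2) r
  have h0 : posTor R n (C 0 ⧸ Bd D 0) N = 0 := by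
    have : Module.Flat R (C 0 ⧸ Bd D 0) :=
      Module.Flat.of_linearEquiv (Submodule.quotEquivOfEqBot (Bd D 0) rfl)
    exact posTor_of_flat _ _ _
  have h1 : posTor R n (C (r + 1) ⧸ Bd D (r + 1)) N = 0 := by
    have := hbase (r + 1) (by omega)
    exact posTor_of_flat _ _ _
  rw [hx, h0, h1]
  ring

end complex

end

end Vale.Agent.P177.H335
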