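import Mathlib
import Vale.Agent.P177.H335.ExtId
import Vale.Agent.P177.H335.Tele

/-!
The dual complex of a finite free resolution computes Ext.
-/

namespace Vale.Agent.P177.H335

open CategoryTheory TensorProduct Function

universe u

section

variable {R : Type u} [CommRing R]

theorem ker_equiv_general {A B E Q : Type u} [AddCommGroup A] [Module R A] [AddCommGroup B]
    [Module R B] [AddCommGroup E] [Module R E] [AddCommGroup Q] [Module R Q] (u : A →ₗ[R] B)
    (v : B →ₗ[R] E) (π : B →ₗ[R] Q) (hπ : Surjective π) (hu : Exact u π) (w : Q →ₗ[R] E)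
    (hw : ∀ x, w (π x) = v x) :
    Nonempty (LinearMap.ker w ≃ₗ[R] (LinearMap.ker v ⧸
      (LinearMap.range u).comap (LinearMap.ker v).subtype)) := by
  let q : LinearMap.ker v →ₗ[R] LinearMap.ker w :=
    (π ∘ₗ (LinearMap.ker v).subtype).codRestrict (LinearMap.ker w) (by
      rintro ⟨x, hx⟩
      rw [LinearMap.mem_ker]
      change w (π x) = 0
      rw [hw]
      exact hx)
  have hq : Surjective q := by
    rintro ⟨y, hy⟩
    obtain ⟨x, rfl⟩ := hπ y
    rw [LinearMap.mem_ker, hw] at hy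
    exact ⟨⟨x, hy⟩, rfl⟩
  refine equiv_of_ker_eq q (Submodule.mkQ _) hq (Submodule.mkQ_surjective _) ?_
  rw [Submodule.ker_mkQ]
  ext ⟨x, hx⟩
  rw [LinearMap.mem_ker, Submodule.mem_comap]
  change q ⟨x, hx⟩ = 0 ↔ x ∈ LinearMap.range u
  rw [Subtype.ext_iff]
  exact hu x

theorem ker_equiv_general_zero {B E Q : Type u} [AddCommGroup B]
    [Module R B] [AddCommGroup E] [Module R E] [AddCommGroup Q] [Module R Q]
    (v : B →ₗ[R] E) (π : B →ₗ[R] Q) (hπ : Bijective π) (w : Q →ₗ[R] E)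
    (hw : ∀ x, w (π x) = v x) : Nonempty (LinearMap.ker w ≃ₗ[R] LinearMap.ker v) := by
  let q : LinearMap.ker v →ₗ[R] LinearMap.ker w :=
    (π ∘ₗ (LinearMap.ker v).subtype).codRestrict (LinearMap.ker w) (by
      rintro ⟨x, hx⟩
      rw [LinearMap.mem_ker]
      change w (π x) = 0
      rw [hw]
      exact hx)
  refine ⟨(LinearEquiv.ofBijective q ⟨?_, ?_⟩).symm⟩
  · rintro ⟨x, hx⟩ ⟨y, hy⟩ h
    have h1 : π x = π y := congrArg Subtype.val h
    exact Subtype.ext (hπ.1 h1)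
  · rintro ⟨y, hy⟩
    obtain ⟨x, rfl⟩ := hπ.2 y
    rw [LinearMap.mem_ker, hw] at hy
    exact ⟨⟨x, hy⟩, rfl⟩

section complex

variable {C : ℕ → Type u} [∀ j, AddCommGroup (C j)] [∀ j, Module R (C j)]

theorem Dbar_mkQ (D : ∀ j, C j →ₗ[R] C (j + 1)) (hD : ∀ j x, D (j + 1) (D j x) = 0) (j : ℕ)
    (x : C j) : Dbar D hD j ((Bd D j).mkQ x) = D j x := rfl

theorem mkQ_zero_bijective (D : ∀ j, C j →ₗ[R] C (j + 1)) : Bijective ((Bd D 0).mkQ) := by
  refine ⟨?_, Submodule.mkQ_surjective _⟩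
  rw [← LinearMap.ker_eq_bot, Submodule.ker_mkQ]
  rfl

theorem ker_Dbar_succ (D : ∀ j, C j →ₗ[R] C (j + 1)) (hD : ∀ j x, D (j + 1) (D j x) = 0) (j : ℕ) :
    Nonempty (LinearMap.ker (Dbar D hD (j + 1)) ≃ₗ[R] (LinearMap.ker (D (j + 1)) ⧸
      (LinearMap.range (D j)).comap (LinearMap.ker (D (j + 1))).subtype)) :=
  ker_equiv_general (D j) (D (j + 1)) (Bd D (j + 1)).mkQ (Submodule.mkQ_surjective _)
    (LinearMap.exact_map_mkQ_range (D j)) (Dbar D hD (j + 1)) (Dbar_mkQ D hD (j + 1))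

theorem ker_Dbar_zero (D : ∀ j, C j →ₗ[R] C (j + 1)) (hD : ∀ j x, D (j + 1) (D j x) = 0) :
    Nonempty (LinearMap.ker (Dbar D hD 0) ≃ₗ[R] LinearMap.ker (D 0)) :=
  ker_equiv_general_zero (D 0) (Bd D 0).mkQ (mkQ_zero_bijective D) (Dbar D hD 0)
    (Dbar_mkQ D hD 0)

theorem ker_Dbar_rTensor_succ (D : ∀ j, C j →ₗ[R] C (j + 1))
    (hD : ∀ j x, D (j + 1) (D j x) = 0) (N : Type u) [AddCommGroup N] [Module R N] (j : ℕ) :
    Nonempty (LinearMap.ker ((Dbar D hD (j + 1)).rTensor N) ≃ₗ[R]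
      (LinearMap.ker ((D (j + 1)).rTensor N) ⧸
      (LinearMap.range ((D j).rTensor N)).comap
        (LinearMap.ker ((D (j + 1)).rTensor N)).subtype)) := by
  refine ker_equiv_general ((D j).rTensor N) ((D (j + 1)).rTensor N)
    ((Bd D (j + 1)).mkQ.rTensor N) (LinearMap.rTensor_surjective N (Submodule.mkQ_surjective _))
    (rTensor_exact N (LinearMap.exact_map_mkQ_range (D j)) (Submodule.mkQ_surjective _))
    ((Dbar D hD (j + 1)).rTensor N) ?_
  intro x
  rw [← LinearMap.comp_apply, ← LinearMap.rTensor_comp]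
  rfl

theorem ker_Dbar_rTensor_zero (D : ∀ j, C j →ₗ[R] C (j + 1))
    (hD : ∀ j x, D (j + 1) (D j x) = 0) (N : Type u) [AddCommGroup N] [Module R N] :
    Nonempty (LinearMap.ker ((Dbar D hD 0).rTensor N) ≃ₗ[R]
      LinearMap.ker ((D 0).rTensor N)) := by
  let e : C 0 ≃ₗ[R] (C 0 ⧸ Bd D 0) := LinearEquiv.ofBijective _ (mkQ_zero_bijective D)
  refine ker_equiv_general_zero ((D 0).rTensor N) ((Bd D 0).mkQ.rTensor N)
    (e.rTensor N).bijective ((Dbar D hD 0).rTensor N) ?_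
  intro x
  rw [← LinearMap.comp_apply, ← LinearMap.rTensor_comp]
  rfl

end complex

section dual

variable {F : ℕ → Type u} [∀ j, AddCommGroup (F j)] [∀ j, Module R (F j)]

/-- The dual complex. -/
def dualD (d : ∀ j, F (j + 1) →ₗ[R] F j) (j : ℕ) :
    Module.Dual R (F j) →ₗ[R] Module.Dual R (F (j + 1)) := (d j).dualMap

theorem dualD_comp (d : ∀ j, F (j + 1) →ₗ[R] F j) (hd : ∀ j, Exact (d (j + 1)) (d j)) (j : ℕ)
    (x : Module.Dual R (F j)) : dualD d (j + 1) (dualD d j x) = 0 := by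
  ext y
  change x (d j (d (j + 1) y)) = 0
  rw [(hd j _).2 ⟨y, rfl⟩, map_zero]

theorem dual_tensor_natural {X Y N : Type u} [AddCommGroup X] [Module R X] [Module.Free R X]
    [Module.Finite R X] [AddCommGroup Y] [Module R Y] [Module.Free R Y]
    [Module.Finite R Y] [AddCommGroup N] [Module R N] (f : Y →ₗ[R] X)
    (x : Module.Dual R X ⊗[R] N) :
    dualTensorHomEquiv R Y N (f.dualMap.rTensor N x) = (dualTensorHomEquiv R X N x) ∘ₗ f := by
  induction x using TensorProduct.induction_on with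
  | zero => simp
  | tmul a n =>
    ext y
    simp
  | add x y hx hy => rw [map_add, map_add, map_add, hx, hy, LinearMap.add_comp]

variable [∀ j, Module.Free R (F j)] [∀ j, Module.Finite R (F j)]

/-- Ext by the dual of a finite free resolution. -/
theorem ext_dual {M N : Type u} [AddCommGroup M] [Module R M] [AddCommGroup N] [Module R N]
    (d : ∀ j, F (j + 1) →ₗ[R] F j) (ε : F 0 →ₗ[R] M)
    (hε : Surjective ε) (h0 : Exact (d 0) ε) (hd : ∀ j, Exact (d (j + 1)) (d j)) (j : ℕ) :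
    Nonempty (ExtM R j M N ≃ₗ[R]
      LinearMap.ker ((Dbar (dualD d) (dualD_comp d hd) j).rTensor N)) := by
  cases j with
  | zero =>
    have he : ∀ x, dualTensorHomEquiv R (F 1) N ((dualD d 0).rTensor N x) =
        (dualTensorHomEquiv R (F 0) N x) ∘ₗ d 0 := fun x => dual_tensor_natural (d 0) x
    obtain ⟨e1⟩ := ext_identify_zero (M := M) (N := N) (F0 := F 0) (F1 := F 1)
      (C0 := Module.Dual R (F 0) ⊗[R] N) (C1 := Module.Dual R (F 1) ⊗[R] N) (d 0) ε hε h0
      ((dualD d 0).rTensor N) (dualTensorHomEquiv R (F 0) N) (dualTensorHomEquiv R (F 1) N) he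
    obtain ⟨e2⟩ := ker_Dbar_rTensor_zero (dualD d) (dualD_comp d hd) N
    exact ⟨e1 ≪≫ₗ e2.symm⟩
  | succ j =>
    obtain ⟨e1⟩ := ext_identify (N := N) j F d ε hε h0 hd (fun i => Module.Dual R (F i) ⊗[R] N)
      (fun i => (dualD d i).rTensor N) (fun i => dualTensorHomEquiv R (F i) N)
      (fun i x => dual_tensor_natural (d i) x)
    obtain ⟨e2⟩ := ker_Dbar_rTensor_succ (dualD d) (dualD_comp d hd) N j
    exact ⟨e1 ≪≫ₗ e2.symm⟩

omit [∀ j, Module.Finite R (F j)] in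
/-- Ext with values in the ring by the dual of a finite free resolution. -/
theorem ext_dual_self {M : Type u} [AddCommGroup M] [Module R M]
    (d : ∀ j, F (j + 1) →ₗ[R] F j) (ε : F 0 →ₗ[R] M)
    (hε : Surjective ε) (h0 : Exact (d 0) ε) (hd : ∀ j, Exact (d (j + 1)) (d j)) (j : ℕ) :
    Nonempty (ExtM R j M R ≃ₗ[R] LinearMap.ker (Dbar (dualD d) (dualD_comp d hd) j)) := by
  cases j with
  | zero =>
    obtain ⟨e1⟩ := ext_identify_zero (N := R) (d 0) ε hε h0 (dualD d 0)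
      (LinearEquiv.refl R _) (LinearEquiv.refl R _) (fun x => rfl)
    obtain ⟨e2⟩ := ker_Dbar_zero (dualD d) (dualD_comp d hd)
    exact ⟨e1 ≪≫ₗ e2.symm⟩
  | succ j =>
    obtain ⟨e1⟩ := ext_identify (N := R) j F d ε hε h0 hd (fun i => Module.Dual R (F i))
      (fun i => dualD d i) (fun i => LinearEquiv.refl R _)
      (fun i x => rfl)
    obtain ⟨e2⟩ := ker_Dbar_succ (dualD d) (dualD_comp d hd) j
    exact ⟨e1 ≪≫ₗ e2.symm⟩

end dual

end

end Vale.Agent.P177.H335
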