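import Mathlib
import Vale.Agent.P177.Bd4.B5

/-!
Finite free resolutions of finite length.
-/

namespace Vale.Agent.P177.H335

open CategoryTheory TensorProduct Function IsLocalRing Vale.Agent.P177

universe u

section cons

variable {R : Type u} [CommRing R]

/-- A resolution with one more term: the terms. -/
def consF (G : ModuleCat.{u} R) (F : ℕ → ModuleCat.{u} R) : ℕ → ModuleCat.{u} R
  | 0 => G
  | j + 1 => F j

/-- A resolution with one more term: the differentials. -/
def consD (G : ModuleCat.{u} R) (F : ℕ → ModuleCat.{u} R) (d0 : F 0 →ₗ[R] G)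
    (d : ∀ j, F (j + 1) →ₗ[R] F j) : ∀ j, consF G F (j + 1) →ₗ[R] consF G F j
  | 0 => d0
  | j + 1 => d j

end cons

variable {R : Type u} [CommRing R] [IsLocalRing R] [IsNoetherianRing R]

theorem free_of_tor_one (M : Type u) [AddCommGroup M] [Module R M] [Module.Finite R M]
    (hM : Subsingleton (TorM R 1 M (ResidueField R))) : Module.Free R M := by
  obtain ⟨m, K, g, hg, hex⟩ := exists_finite_free_cover (R := R) M
  obtain ⟨e⟩ := tor_one K.subtype g (Submodule.injective_subtype _) hg hex (ResidueField R)
  have h1 : Subsingleton (LinearMap.ker (K.subtype.rTensor (ResidueField R))) :=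
    e.symm.injective.subsingleton
  have h3 : Injective (K.subtype.rTensor (ResidueField R)) := by
    rw [injective_iff_map_eq_zero]
    intro x hx
    exact congrArg Subtype.val (h1.elim ⟨x, hx⟩ 0)
  refine Module.free_of_lTensor_residueField_injective K.subtype g hg hex ?_
  exact (LinearMap.lTensor_inj_iff_rTensor_inj _ _).2 h3

/-- Finite free resolutions of length at most `n`. -/
theorem exists_resolution (n : ℕ)
    (M : Type u) [AddCommGroup M] [Module R M] [Module.Finite R M]
    (hM : Subsingleton (TorM R (n + 1) M (ResidueField R))) :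
    ∃ (F : ℕ → ModuleCat.{u} R) (d : ∀ j, F (j + 1) →ₗ[R] F j) (ε : F 0 →ₗ[R] M),
      (∀ j, Module.Free R (F j)) ∧ (∀ j, Module.Finite R (F j)) ∧
      (∀ j, n < j → Subsingleton (F j)) ∧
      Surjective ε ∧ Exact (d 0) ε ∧ ∀ j, Exact (d (j + 1)) (d j) := by
  induction n generalizing M with
  | zero =>
    have hfree := free_of_tor_one M hM
    refine ⟨consF (ModuleCat.of R M) (fun _ => ModuleCat.of R PUnit.{u + 1}),
      consD _ _ 0 (fun _ => 0), LinearMap.id, ?_, ?_, ?_, surjective_id, ?_, ?_⟩
    · rintro (_ | j)
      · exact hfree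
      · change Module.Free R PUnit.{u + 1}
        infer_instance
    · rintro (_ | j)
      · change Module.Finite R M
        infer_instance
      · change Module.Finite R PUnit.{u + 1}
        infer_instance
    · rintro (_ | j) hj
      · omega
      · change Subsingleton PUnit.{u + 1}
        infer_instance
    · intro x
      change x = 0 ↔ x ∈ Set.range (0 : PUnit.{u + 1} →ₗ[R] M)
      constructor
      · rintro rfl
        exact ⟨0, rfl⟩
      · rintro ⟨y, rfl⟩
        rfl
    · intro j x
      have : Subsingleton (consF (ModuleCat.of R M) (fun _ => ModuleCat.of R PUnit.{u + 1})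
          (j + 1)) := by
        change Subsingleton PUnit.{u + 1}
        infer_instance
      constructor
      · intro _
        exact ⟨0, Subsingleton.elim _ _⟩
      · rintro ⟨y, rfl⟩
        cases j with
        | zero => rfl
        | succ j => rfl
  | succ n ih =>
    obtain ⟨m, K, g, hg, hex⟩ := exists_finite_free_cover (R := R) M
    obtain ⟨e⟩ := tor_shift K.subtype g (Submodule.injective_subtype _) hg hex (ResidueField R) n
    have hK : Subsingleton (TorM R (n + 1) K (ResidueField R)) := e.symm.injective.subsingleton
    obtain ⟨F, d, ε, h1, h2, h3, h4, h5, h6⟩ := ih K hK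
    refine ⟨consF (ModuleCat.of R (Fin m → R)) F, consD _ F (K.subtype ∘ₗ ε) d, g, ?_, ?_, ?_,
      hg, ?_, ?_⟩
    · rintro (_ | j)
      · change Module.Free R (Fin m → R)
        infer_instance
      · exact h1 j
    · rintro (_ | j)
      · change Module.Finite R (Fin m → R)
        infer_instance
      · exact h2 j
    · rintro (_ | j) hj
      · omega
      · exact h3 j (by omega)
    · intro x
      refine (hex x).trans ⟨?_, ?_⟩
      · rintro ⟨y, rfl⟩
        obtain ⟨z, rfl⟩ := h4 y
        exact ⟨z, rfl⟩
      · rintro ⟨y, rfl⟩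
        exact ⟨ε y, rfl⟩
    · rintro (_ | j)
      · intro x
        refine Iff.trans ?_ (h5 x)
        exact ⟨fun h => Subtype.ext h, fun h => congrArg Subtype.val h⟩
      · exact h6 j

end Vale.Agent.P177.H335
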