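import Mathlib
import Vale.Agent.P177.H335.DualCx
import Vale.Agent.P177.H335.Resol
import Vale.Agent.P177.H391.Fin

/-!
The Euler form of two modules over a regular local ring.
-/

namespace Vale.Agent.P177.H335

open CategoryTheory TensorProduct Function IsLocalRing Vale.Agent.P177 Vale.Agent.P177.H391

universe u

section finiteness

variable {R : Type u} [CommRing R] [IsLocalRing R] [IsNoetherianRing R]

theorem ext_length_ne_top (i : ℕ) (M N : Type u) [AddCommGroup M] [Module R M]
    [Module.Finite R M] [AddCommGroup N] [Module R N] [Module.Finite R N]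
    (h : Module.length R (M ⊗[R] N) ≠ ⊤) : Module.length R (ExtM R i M N) ≠ ⊤ := by
  obtain ⟨k, hk⟩ := exists_pow_le_sup_annihilator M N h
  have := ext_finite (R := R) i M N
  rw [Module.length_ne_top_iff]
  refine isFiniteLength_of_pow_smul_eq_zero k ?_
  intro a ha x
  obtain ⟨b, hb, c, hc, rfl⟩ := Submodule.mem_sup.1 (hk ha)
  rw [add_smul, ext_smul_eq_zero_left b (fun m => Module.mem_annihilator.1 hb m),
    ext_smul_eq_zero_right c (fun m => Module.mem_annihilator.1 hc m), add_zero]

omit [IsLocalRing R] [IsNoetherianRing R] in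
theorem annihilator_le_ext (i : ℕ) (M N : Type u) [AddCommGroup M] [Module R M]
    [AddCommGroup N] [Module R N] :
    Module.annihilator R M ≤ Module.annihilator R (ExtM R i M N) := by
  intro a ha
  rw [Module.mem_annihilator]
  exact fun x => ext_smul_eq_zero_left a (fun m => Module.mem_annihilator.1 ha m) i x

end finiteness

section reg

variable {R : Type u} [CommRing R] [IsRegularLocalRing R] {d : ℕ}

theorem exists_regular_resolution (hd : ringKrullDim R = d) (M : Type u) [AddCommGroup M]
    [Module R M] [Module.Finite R M] :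
    ∃ (F : ℕ → ModuleCat.{u} R) (d' : ∀ j, F (j + 1) →ₗ[R] F j) (ε : F 0 →ₗ[R] M),
      (∀ j, Module.Free R (F j)) ∧ (∀ j, Module.Finite R (F j)) ∧
      (∀ j, d < j → Subsingleton (F j)) ∧
      Surjective ε ∧ Exact (d' 0) ε ∧ ∀ j, Exact (d' (j + 1)) (d' j) :=
  exists_resolution d M (regular_tor_vanish R d hd M (ResidueField R) (d + 1) le_rfl)

section aux

variable {F : ℕ → Type u} [∀ j, AddCommGroup (F j)] [∀ j, Module R (F j)]
  [∀ j, Module.Free R (F j)] [∀ j, Module.Finite R (F j)]

omit [IsRegularLocalRing R] in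
theorem ext_vanish_aux (M N : Type u) [AddCommGroup M]
    [Module R M] [AddCommGroup N] [Module R N]
    (d' : ∀ j, F (j + 1) →ₗ[R] F j) (ε : F 0 →ₗ[R] M) (h4 : Surjective ε)
    (h5 : Exact (d' 0) ε) (h6 : ∀ j, Exact (d' (j + 1)) (d' j)) (j : ℕ)
    (h3 : Subsingleton (F j)) : Subsingleton (ExtM R j M N) := by
  obtain ⟨e⟩ := ext_dual (N := N) d' ε h4 h5 h6 j
  have h7 : Subsingleton (Module.Dual R (F j)) := ⟨fun f g => by
    ext x
    rw [Subsingleton.elim x 0, map_zero, map_zero]⟩
  have h8 : Subsingleton (Module.Dual R (F j) ⧸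
      Bd (C := fun i => Module.Dual R (F i)) (dualD d') j) := inferInstance
  have h9 : Subsingleton ((Module.Dual R (F j) ⧸
      Bd (C := fun i => Module.Dual R (F i)) (dualD d') j) ⊗[R] N) := by
    refine subsingleton_of_forall_eq 0 fun z => ?_
    induction z using TensorProduct.induction_on with
    | zero => rfl
    | tmul x y => rw [Subsingleton.elim x 0, TensorProduct.zero_tmul]
    | add x y hx hy => rw [hx, hy, add_zero]
  exact e.injective.subsingleton

theorem eulerExt_eq_sum_aux (hd : ringKrullDim R = d) (M N : Type u) [AddCommGroup M]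
    [Module R M] [Module.Finite R M] [AddCommGroup N] [Module R N] [Module.Finite R N]
    (hlen : Module.length R (M ⊗[R] N) ≠ ⊤)
    (d' : ∀ j, F (j + 1) →ₗ[R] F j) (ε : F 0 →ₗ[R] M) (h4 : Surjective ε)
    (h5 : Exact (d' 0) ε) (h6 : ∀ j, Exact (d' (j + 1)) (d' j))
    (h3 : ∀ j, d < j → Subsingleton (F j)) :
    eulerExt R (d + 1) M N =
      ∑ j ∈ Finset.range (d + 1), (-1 : ℤ) ^ j * eulerTor R (d + 1) (ExtM R j M R) N := by
  have hE : ∀ j, Nonempty (ExtM R j M R ≃ₗ[R]
      LinearMap.ker (Dbar (C := fun i => Module.Dual R (F i)) (dualD d') (dualD_comp d' h6) j)) :=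
    fun j => ext_dual_self d' ε h4 h5 h6 j
  have hEN : ∀ j, Nonempty (ExtM R j M N ≃ₗ[R]
      LinearMap.ker ((Dbar (C := fun i => Module.Dual R (F i)) (dualD d')
        (dualD_comp d' h6) j).rTensor N)) :=
    fun j => ext_dual (N := N) d' ε h4 h5 h6 j
  have htor : ∀ j k, Module.length R (TorM R k (LinearMap.ker
      (Dbar (C := fun i => Module.Dual R (F i)) (dualD d') (dualD_comp d' h6) j)) N) ≠ ⊤ := by
    intro j k
    obtain ⟨e⟩ := hE j
    have := ext_finite (R := R) j M R
    have := Module.Finite.equiv e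
    refine tor_length_ne_top k _ _ ?_
    refine length_tensor_ne_top_of_annihilator_le M _ N hlen ?_
    exact (annihilator_le_ext j M R).trans e.annihilator_eq.le
  have hflat : ∀ j, Module.Flat R (Module.Dual R (F j)) := fun j => inferInstance
  obtain ⟨-, key⟩ := tele_complex (C := fun i => Module.Dual R (F i)) (dualD d')
    (dualD_comp d' h6) d (fun j hj => by
      have := h3 j hj
      exact ⟨fun f g => by
        ext x
        rw [Subsingleton.elim x 0, map_zero, map_zero]⟩) N d htor
    (fun j k hk => regular_tor_vanish R d hd _ N k hk)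
  have hl : eulerExt R (d + 1) M N = ∑ j ∈ Finset.range (d + 1),
      (-1 : ℤ) ^ j * ((Module.length R (LinearMap.ker
        ((Dbar (C := fun i => Module.Dual R (F i)) (dualD d')
          (dualD_comp d' h6) j).rTensor N))).toNat : ℤ) := by
    unfold eulerExt
    refine Finset.sum_congr rfl fun j _ => ?_
    obtain ⟨e⟩ := hEN j
    exact congrArg (fun t : ℕ∞ => (-1 : ℤ) ^ j * (t.toNat : ℤ)) e.length_eq
  rw [hl, key]
  refine Finset.sum_congr rfl fun j _ => ?_
  obtain ⟨e⟩ := hE j
  rw [eulerTor_congr e (LinearEquiv.refl R N)]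

end aux

/-- Ext vanishes above the dimension. -/
theorem ext_vanish (hd : ringKrullDim R = d) (M N : Type u) [AddCommGroup M]
    [Module R M] [Module.Finite R M] [AddCommGroup N] [Module R N] (j : ℕ) (hj : d < j) :
    Subsingleton (ExtM R j M N) := by
  obtain ⟨F, d', ε, h1, h2, h3, h4, h5, h6⟩ := exists_regular_resolution hd M
  exact ext_vanish_aux (F := fun i => F i) M N d' ε h4 h5 h6 j (h3 j hj)

/-- The Euler form in terms of the intersection multiplicities of the `Ext^j(M, R)`. -/
theorem eulerExt_eq_sum (hd : ringKrullDim R = d) (M N : Type u) [AddCommGroup M]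
    [Module R M] [Module.Finite R M] [AddCommGroup N] [Module R N] [Module.Finite R N]
    (hlen : Module.length R (M ⊗[R] N) ≠ ⊤) :
    eulerExt R (d + 1) M N =
      ∑ j ∈ Finset.range (d + 1), (-1 : ℤ) ^ j * eulerTor R (d + 1) (ExtM R j M R) N := by
  obtain ⟨F, d', ε, h1, h2, h3, h4, h5, h6⟩ := exists_regular_resolution hd M
  exact eulerExt_eq_sum_aux (F := fun i => F i) hd M N hlen d' ε h4 h5 h6 h3

end reg

end Vale.Agent.P177.H335
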