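import Mathlib
import Vale.Agent.P177.H335.Main

/-!
The local Euler characteristic of the `Ext^j(R/P, R)` at `P`.
-/

namespace Vale.Agent.P177.H335

open CategoryTheory TensorProduct Function IsLocalRing Vale.Agent.P177 Vale.Agent.P177.H391

universe u

section reg

variable {R : Type u} [CommRing R] [IsRegularLocalRing R] {d : ℕ}

theorem addLen_locLen {R : Type u} [CommRing R] (P : Ideal R) [P.IsPrime] :
    AddLen (R := R) (fun X _ _ => locLen P X) :=
  fun _ _ _ _ _ _ _ _ _ f g hf hg h => locLen_add P f g hf hg h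

/-- The alternating sum of the lengths of the localizations of `Ext^j(X, R)` at `P`. -/
noncomputable def locExt (P : Ideal R) [P.IsPrime] (n : ℕ) (X : Type u) [AddCommGroup X]
    [Module R X] : ℤ :=
  ∑ j ∈ Finset.range n, (-1 : ℤ) ^ j * ((locLen P (ExtM R j X R)).toNat : ℤ)

theorem supportDim_ext_le (X : Type u) [AddCommGroup X] [Module R X] [Module.Finite R X]
    (j : ℕ) (y : ℕ) (hX : Module.supportDim R X ≤ y) :
    Module.supportDim R (ExtM R j X R) ≤ y := by
  have := ext_finite (R := R) j X R
  refine (supportDim_le_of_le_annihilator (Module.annihilator R X) _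
    (annihilator_le_ext j X R)).trans ?_
  have h4 : Module.supportDim R (R ⧸ Module.annihilator R X) = Module.supportDim R X := by
    unfold Module.supportDim
    rw [Module.support_eq_zeroLocus, Module.support_eq_zeroLocus, Ideal.annihilator_quotient]
  rw [h4]
  exact hX

theorem locLen_ext_ne_top (hd : ringKrullDim R = d) (P : PrimeSpectrum R) (y : ℕ)
    (hP : Module.supportDim R (R ⧸ P.asIdeal) = y) (X : Type u) [AddCommGroup X] [Module R X]
    [Module.Finite R X] (hX : Module.supportDim R X ≤ y) (j : ℕ) :
    locLen P.asIdeal (ExtM R j X R) ≠ ⊤ := by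
  have := ext_finite (R := R) j X R
  exact (cyc_props hd y (ExtM R j X R) (supportDim_ext_le X j y hX)).1 P hP

/-- The local Euler characteristic at `P` is proportional to the length at `P`. -/
theorem locExt_eq (hd : ringKrullDim R = d) (P : PrimeSpectrum R) (y : ℕ)
    (hP : Module.supportDim R (R ⧸ P.asIdeal) = y) (X : Type u) [AddCommGroup X] [Module R X]
    [Module.Finite R X] (hX : Module.supportDim R X ≤ y) :
    locExt P.asIdeal (d + 1) X = ((locLen P.asIdeal X).toNat : ℤ) *
      locExt P.asIdeal (d + 1) (R ⧸ P.asIdeal) := by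
  suffices H : ∀ (X : Type u) [AddCommGroup X] [Module R X] (_ : Module.Finite R X),
      Module.supportDim R X ≤ y →
      locExt P.asIdeal (d + 1) X = ((locLen P.asIdeal X).toNat : ℤ) *
        locExt P.asIdeal (d + 1) (R ⧸ P.asIdeal) from H X inferInstance hX
  clear hX
  intro X _ _ hX
  induction hX using IsNoetherianRing.induction_on_isQuotientEquivQuotientPrime R with
  | subsingleton X =>
    intro _
    rw [locLen_subsingleton]
    unfold locExt
    simp only [ENat.toNat_zero, Nat.cast_zero, zero_mul]
    refine Finset.sum_eq_zero fun j _ => ?_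
    have : Subsingleton (ExtM R j X R) := ⟨fun a b => by
      have h1 : ∀ c : ExtM R j X R, c = 0 := fun c => by
        rw [← one_smul R c]
        exact ext_smul_eq_zero_left (1 : R) (fun m => Subsingleton.elim _ _) j c
      rw [h1 a, h1 b]⟩
    rw [locLen_subsingleton]
    simp
  | quotient X p e =>
    intro hdim
    have hX : Module.annihilator R X = p.asIdeal := by
      rw [e.annihilator_eq, Ideal.annihilator_quotient]
    by_cases hpP : p = P
    · subst hpP
      rw [locLen_congr p.asIdeal e]
      change _ = ((locLen p.asIdeal (R ⧸ p.asIdeal)).toNat : ℤ) * _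
      rw [locLen_self]
      simp only [ENat.toNat_one, Nat.cast_one, one_mul]
      unfold locExt
      refine Finset.sum_congr rfl fun j _ => ?_
      obtain ⟨e'⟩ := extCongr e R j
      change _ = (-1 : ℤ) ^ j * ((locLen p.asIdeal (ExtM R j (R ⧸ p.asIdeal) R)).toNat : ℤ)
      rw [← locLen_congr p.asIdeal e']
    · have hnle : ¬ p.asIdeal ≤ P.asIdeal := by
        intro hle
        apply hpP
        refine PrimeSpectrum.ext (eq_of_dim_le hd hle ?_)
        rw [hP]
        have h1 := Module.supportDim_eq_of_equiv e
        change Module.supportDim R (R ⧸ p.asIdeal) ≤ y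
        exact h1.symm.le.trans hdim
      obtain ⟨a, ha, haP⟩ := SetLike.not_le_iff_exists.1 hnle
      have haX : ∀ x : X, a • x = 0 := fun x => Module.mem_annihilator.1 (hX ▸ ha) x
      rw [locLen_eq_zero P.asIdeal X a haP haX]
      simp only [ENat.toNat_zero, Nat.cast_zero, zero_mul]
      unfold locExt
      refine Finset.sum_eq_zero fun j _ => ?_
      rw [locLen_eq_zero P.asIdeal _ a haP (fun x => ext_smul_eq_zero_left a haX j x)]
      simp
  | exact X' X X'' f g hf hg hex h1 h3 =>
    intro hdim
    have hdim' := (Module.supportDim_le_of_injective f hf).trans hdim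
    have hdim'' := (Module.supportDim_le_of_surjective g hg).trans hdim
    obtain ⟨a, b, δ, e0, e1, e2, e3⟩ := exists_extDelta f g hf hg hex R
    have key := (addLen_locLen P.asIdeal).les (R := R) a b δ e0 e1 e2 e3
      (locLen_ext_ne_top hd P y hP X'' hdim'') (locLen_ext_ne_top hd P y hP X hdim)
      (locLen_ext_ne_top hd P y hP X' hdim') d (ext_vanish hd X'' R (d + 1) (by omega))
    have hl := locLen_add P.asIdeal f g hf hg hex
    have hfin := (cyc_props hd y X hdim).1 P hP
    rw [hl] at hfin
    have hfin' := WithTop.add_ne_top.1 hfin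
    have h1' := h1 hdim'
    have h3' := h3 hdim''
    unfold locExt at h1' h3' ⊢
    rw [key, h1', h3', hl, ENat.toNat_add hfin'.1 hfin'.2]
    push_cast
    ring

/-- The local Euler characteristic at `P` is the sign of the height. -/
theorem locExt_prime (hd : ringKrullDim R = d) (P : PrimeSpectrum R) (c : ℕ)
    (hc : P.asIdeal.height = c) :
    locExt P.asIdeal (d + 1) (R ⧸ P.asIdeal) = (-1) ^ c := by
  obtain ⟨zs, hmem, hreg, hlen, hht, hdim, -⟩ := exists_ci hd P.asIdeal
  have hcz : zs.length = c := by
    rw [hc] at hht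
    exact_mod_cast hht.symm
  subst hcz
  have hm : ∀ z ∈ zs, z ∈ maximalIdeal R := fun z hz => le_maximalIdeal P.2.ne_top (hmem z hz)
  have hA := supportDim_quot_of_weaklyRegular hd zs hm hreg
  have key := locExt_eq hd P (d - zs.length) hdim
    (R ⧸ (Ideal.ofList zs • ⊤ : Submodule R R)) hA.le
  obtain ⟨h1, ⟨e⟩⟩ := ext_ci zs hreg
  have h2 : locExt P.asIdeal (d + 1) (R ⧸ (Ideal.ofList zs • ⊤ : Submodule R R)) =
      (-1) ^ zs.length *
        ((locLen P.asIdeal (R ⧸ (Ideal.ofList zs • ⊤ : Submodule R R))).toNat : ℤ) := by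
    unfold locExt
    rw [Finset.sum_eq_single zs.length]
    · rw [locLen_congr P.asIdeal e]
    · intro j _ hj
      have := h1 j hj
      rw [locLen_subsingleton]
      simp
    · intro h
      exact absurd (Finset.mem_range.2 (by omega)) h
  have hne : locLen P.asIdeal (R ⧸ (Ideal.ofList zs • ⊤ : Submodule R R)) ≠ 0 := by
    refine locLen_ne_zero P.asIdeal _ ?_ zs.length hc
    have hI : (Ideal.ofList zs • ⊤ : Submodule R R) = Ideal.ofList zs := by
      rw [smul_eq_mul, Ideal.mul_top]
    rw [hI, Ideal.annihilator_quotient, Ideal.ofList, Ideal.span_le]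
    exact hmem
  have hfin : locLen P.asIdeal (R ⧸ (Ideal.ofList zs • ⊤ : Submodule R R)) ≠ ⊤ :=
    (cyc_props hd (d - zs.length) _ hA.le).1 P hdim
  have hpos : ((locLen P.asIdeal (R ⧸ (Ideal.ofList zs • ⊤ : Submodule R R))).toNat : ℤ) ≠ 0 := by
    rw [Ne, Nat.cast_eq_zero, ENat.toNat_eq_zero]
    push Not
    exact ⟨hne, hfin⟩
  rw [h2, mul_comm] at key
  exact (mul_left_cancel₀ hpos key).symm

end reg

end Vale.Agent.P177.H335
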