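import Mathlib
import Vale.Agent.P177.H335.Loc

/-!
The Euler form and Serre's intersection multiplicity.
-/

namespace Vale.Agent.P177.H335

open CategoryTheory TensorProduct Function IsLocalRing Vale.Agent.P177 Vale.Agent.P177.H391

universe u

section reg

variable {R : Type u} [CommRing R] [IsRegularLocalRing R] {d : ℕ}

/-- The intersection multiplicity of a module killed by `P`. -/
theorem eulerTor_killed (hd : ringKrullDim R = d) (n : ℕ) (hnd : n ≤ d) (N : Type u)
    [AddCommGroup N] [Module R N] [Module.Finite R N] (hN : Module.supportDim R N ≤ n)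
    (P : PrimeSpectrum R) (hlen : Module.length R ((R ⧸ P.asIdeal) ⊗[R] N) ≠ ⊤)
    (E : Type u) [AddCommGroup E] [Module R E] [Module.Finite R E]
    (hE : P.asIdeal ≤ Module.annihilator R E)
    (hP : Module.supportDim R (R ⧸ P.asIdeal) ≤ ((d - n : ℕ) : WithBot ℕ∞)) :
    eulerTor R (d + 1) E N =
      cyc (d - n) E P * eulerTor R (d + 1) (R ⧸ P.asIdeal) N := by
  have hlenE : Module.length R (E ⊗[R] N) ≠ ⊤ :=
    length_tensor_ne_top_of_annihilator_le _ E N hlen (by rwa [Ideal.annihilator_quotient])
  have hdimE : Module.supportDim R E ≤ ((d - n : ℕ) : WithBot ℕ∞) :=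
    (supportDim_le_of_le_annihilator P.asIdeal E hE).trans hP
  rw [left_formula hd (nonNeg hd) (d - n) n (by omega) N hN E hdimE hlenE]
  refine finsum_eq_single _ P ?_
  intro Q hQ
  by_contra hne
  have h1 : cyc (d - n) E Q ≠ 0 := fun h => hne (by rw [h, zero_mul])
  have h2 := ann_le_of_cyc_ne_zero h1
  have h3 := dim_of_cyc_ne_zero h1
  exact hQ (PrimeSpectrum.ext (eq_of_dim_le hd (hE.trans h2) (by rw [h3]; exact hP)).symm)

theorem eulerExt_prime (hd : ringKrullDim R = d) (n : ℕ) (N : Type u)
    [AddCommGroup N] [Module R N] [Module.Finite R N] (hN : Module.supportDim R N = n)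
    (P : PrimeSpectrum R) (hlen : Module.length R ((R ⧸ P.asIdeal) ⊗[R] N) ≠ ⊤) :
    eulerExt R (d + 1) (R ⧸ P.asIdeal) N =
      (-1) ^ n * eulerTor R (d + 1) (R ⧸ P.asIdeal) N := by
  obtain ⟨h, hh, hhd, hdim⟩ := supportDim_prime_eq hd P.asIdeal
  have hle := dim_le hd (R ⧸ P.asIdeal) N hlen
  rw [hdim, hN] at hle
  have hle' : d - h + n ≤ d := by exact_mod_cast hle
  have hP : Module.supportDim R (R ⧸ P.asIdeal) ≤ ((d - n : ℕ) : WithBot ℕ∞) := by
    rw [hdim]
    have : d - h ≤ d - n := by omega
    exact_mod_cast this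
  have hsum : eulerExt R (d + 1) (R ⧸ P.asIdeal) N = ∑ j ∈ Finset.range (d + 1), (-1 : ℤ) ^ j *
      (cyc (d - n) (ExtM R j (R ⧸ P.asIdeal) R) P * eulerTor R (d + 1) (R ⧸ P.asIdeal) N) := by
    rw [eulerExt_eq_sum hd (R ⧸ P.asIdeal) N hlen]
    refine Finset.sum_congr rfl fun j _ => ?_
    have := ext_finite (R := R) j (R ⧸ P.asIdeal) R
    rw [eulerTor_killed hd n (by omega) N hN.le P hlen (ExtM R j (R ⧸ P.asIdeal) R) ?_ hP]
    have h1 := annihilator_le_ext (R := R) j (R ⧸ P.asIdeal) R
    rwa [Ideal.annihilator_quotient] at h1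
  by_cases heq : d - h = d - n
  · have hhn : h = n := by omega
    subst hhn
    have hl := locExt_prime hd P h hh
    unfold locExt at hl
    rw [hsum, ← hl, Finset.sum_mul]
    refine Finset.sum_congr rfl fun j _ => ?_
    rw [cyc_of_eq hdim]
    ring
  · have hlt : Module.supportDim R (R ⧸ P.asIdeal) + Module.supportDim R N < d := by
      rw [hdim, hN]
      have : d - h + n < d := by omega
      exact_mod_cast this
    rw [hsum, vanish hd (nonNeg hd) _ N hlen hlt]
    simp

/-- **The Euler form is the intersection multiplicity up to the sign of the dimension.** -/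
theorem eulerExt_eq (hd : ringKrullDim R = d) (n : ℕ) (M N : Type u) [AddCommGroup M]
    [Module R M] [Module.Finite R M] [AddCommGroup N] [Module R N] [Module.Finite R N]
    (hN : Module.supportDim R N = n) (hlen : Module.length R (M ⊗[R] N) ≠ ⊤) :
    eulerExt R (d + 1) M N = (-1) ^ n * eulerTor R (d + 1) M N := by
  suffices H : ∀ (X : Type u) [AddCommGroup X] [Module R X] (_ : Module.Finite R X),
      Module.length R (X ⊗[R] N) ≠ ⊤ →
      eulerExt R (d + 1) X N = (-1) ^ n * eulerTor R (d + 1) X N from H M inferInstance hlen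
  clear hlen
  intro X _ _ hX
  induction hX using IsNoetherianRing.induction_on_isQuotientEquivQuotientPrime R with
  | subsingleton X =>
    intro _
    rw [eulerTor_subsingleton' X N inferInstance, mul_zero]
    unfold eulerExt
    refine Finset.sum_eq_zero fun j _ => ?_
    have : Subsingleton (ExtM R j X N) := ⟨fun a b => by
      have h1 : ∀ c : ExtM R j X N, c = 0 := fun c => by
        rw [← one_smul R c]
        exact ext_smul_eq_zero_left (1 : R) (fun m => Subsingleton.elim _ _) j c
      rw [h1 a, h1 b]⟩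
    rw [Module.length_eq_zero]
    simp
  | quotient X p e =>
    intro hlen
    have hlen' : Module.length R ((R ⧸ p.asIdeal) ⊗[R] N) ≠ ⊤ :=
      length_tensor_ne_top_of_annihilator_le X _ N hlen e.annihilator_eq.le
    have h1 : eulerExt R (d + 1) X N = eulerExt R (d + 1) (R ⧸ p.asIdeal) N := by
      unfold eulerExt
      refine Finset.sum_congr rfl fun j _ => ?_
      obtain ⟨e'⟩ := extCongr e N j
      rw [← e'.length_eq]
    rw [h1, eulerTor_congr e (LinearEquiv.refl R N)]
    exact eulerExt_prime hd n N hN p hlen'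
  | exact X' X X'' f g hf hg hex h1 h3 =>
    intro hlen
    have hlen' : Module.length R (X' ⊗[R] N) ≠ ⊤ :=
      length_tensor_ne_top_of_annihilator_le X X' N hlen
        (LinearMap.annihilator_le_of_injective f hf)
    have hlen'' : Module.length R (X'' ⊗[R] N) ≠ ⊤ :=
      length_tensor_ne_top_of_annihilator_le X X'' N hlen
        (LinearMap.annihilator_le_of_surjective g hg)
    rw [eulerTor_add f g hf hg hex N d (fun j => tor_length_ne_top j _ _ hlen')
      (fun j => tor_length_ne_top j _ _ hlen) (fun j => tor_length_ne_top j _ _ hlen'')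
      (regular_tor_vanish R d hd _ N (d + 1) le_rfl),
      eulerExt_add f g hf hg hex N d (fun j => ext_length_ne_top j _ _ hlen')
      (fun j => ext_length_ne_top j _ _ hlen) (fun j => ext_length_ne_top j _ _ hlen'')
      (ext_vanish hd X'' N (d + 1) (by omega)), h1 hlen', h3 hlen'']
    ring

end reg

end Vale.Agent.P177.H335
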