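import Mathlib
import Vale.Agent.P177.H335.Final

/-!
Complexes of finite free modules.
-/

namespace Vale.Agent.P177.H335

open CategoryTheory TensorProduct Function IsLocalRing Vale.Agent.P177 Vale.Agent.P177.H391

universe u

section

variable {R : Type u} [CommRing R]
variable {C : ℕ → Type u} [∀ j, AddCommGroup (C j)] [∀ j, Module R (C j)]

theorem coh_equiv (D : ∀ j, C j →ₗ[R] C (j + 1)) (hD : ∀ j x, D (j + 1) (D j x) = 0) (j : ℕ) :
    Nonempty ((LinearMap.ker (D j) ⧸ (Bd D j).comap (LinearMap.ker (D j)).subtype) ≃ₗ[R]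
      LinearMap.ker (Dbar D hD j)) := by
  cases j with
  | zero =>
    obtain ⟨e⟩ := ker_Dbar_zero D hD
    have h0 : (Bd D 0).comap (LinearMap.ker (D 0)).subtype = ⊥ := by
      change (⊥ : Submodule R (C 0)).comap (LinearMap.ker (D 0)).subtype = ⊥
      rw [Submodule.comap_bot, Submodule.ker_subtype]
    exact ⟨Submodule.quotEquivOfEqBot _ h0 ≪≫ₗ e.symm⟩
  | succ j =>
    obtain ⟨e⟩ := ker_Dbar_succ D hD j
    exact ⟨e.symm⟩

theorem coh_rTensor_equiv (D : ∀ j, C j →ₗ[R] C (j + 1)) (hD : ∀ j x, D (j + 1) (D j x) = 0)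
    (N : Type u) [AddCommGroup N] [Module R N] (j : ℕ) :
    Nonempty ((LinearMap.ker ((D j).rTensor N) ⧸
      (Bd (C := fun i => C i ⊗[R] N) (fun i => (D i).rTensor N) j).comap
        (LinearMap.ker ((D j).rTensor N)).subtype) ≃ₗ[R]
      LinearMap.ker ((Dbar D hD j).rTensor N)) := by
  cases j with
  | zero =>
    obtain ⟨e⟩ := ker_Dbar_rTensor_zero D hD N
    have h0 : (Bd (C := fun i => C i ⊗[R] N) (fun i => (D i).rTensor N) 0).comap
        (LinearMap.ker ((D 0).rTensor N)).subtype = ⊥ := by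
      change (⊥ : Submodule R (C 0 ⊗[R] N)).comap (LinearMap.ker ((D 0).rTensor N)).subtype = ⊥
      rw [Submodule.comap_bot, Submodule.ker_subtype]
    exact ⟨Submodule.quotEquivOfEqBot _ h0 ≪≫ₗ e.symm⟩
  | succ j =>
    obtain ⟨e⟩ := ker_Dbar_rTensor_succ D hD N j
    exact ⟨e.symm⟩

end

section reg

variable {R : Type u} [CommRing R] [IsRegularLocalRing R] {d : ℕ}

theorem complex_formula (hd : ringKrullDim R = d)
    {C : ℕ → Type u} [∀ j, AddCommGroup (C j)] [∀ j, Module R (C j)] [∀ j, Module.Free R (C j)]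
    [∀ j, Module.Finite R (C j)] (D : ∀ j, C j →ₗ[R] C (j + 1))
    (hD : ∀ j x, D (j + 1) (D j x) = 0) (r : ℕ) (hr : ∀ j, r < j → Subsingleton (C j))
    (N : Type u) [AddCommGroup N] [Module R N] [Module.Finite R N]
    (hlen : ∀ j, Module.length R
      ((LinearMap.ker (D j) ⧸ (Bd D j).comap (LinearMap.ker (D j)).subtype) ⊗[R] N) ≠ ⊤) :
    (∀ j, Module.length R (LinearMap.ker ((D j).rTensor N) ⧸
      (Bd (C := fun i => C i ⊗[R] N) (fun i => (D i).rTensor N) j).comap
        (LinearMap.ker ((D j).rTensor N)).subtype) ≠ ⊤) ∧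
    ∑ j ∈ Finset.range (r + 1), (-1 : ℤ) ^ j *
      ((Module.length R (LinearMap.ker ((D j).rTensor N) ⧸
      (Bd (C := fun i => C i ⊗[R] N) (fun i => (D i).rTensor N) j).comap
        (LinearMap.ker ((D j).rTensor N)).subtype)).toNat : ℤ) =
    ∑ j ∈ Finset.range (r + 1), (-1 : ℤ) ^ j *
      eulerTor R (d + 1) (LinearMap.ker (D j) ⧸ (Bd D j).comap (LinearMap.ker (D j)).subtype) N := by
  have htor : ∀ j k, Module.length R (TorM R k (LinearMap.ker (Dbar D hD j)) N) ≠ ⊤ := by
    intro j k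
    obtain ⟨e⟩ := coh_equiv D hD j
    rw [← (torCongrLeft k e N).length_eq]
    exact tor_length_ne_top k _ _ (hlen j)
  obtain ⟨h1, h2⟩ := tele_complex D hD r hr N d htor
    (fun j k hk => regular_tor_vanish R d hd _ N k hk)
  constructor
  · intro j
    obtain ⟨e⟩ := coh_rTensor_equiv D hD N j
    have h3 : Module.length R (LinearMap.ker ((Dbar D hD j).rTensor N)) =
        Module.length R (LinearMap.ker ((D j).rTensor N) ⧸
          (Bd (C := fun i => C i ⊗[R] N) (fun i => (D i).rTensor N) j).comap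
            (LinearMap.ker ((D j).rTensor N)).subtype) := e.symm.length_eq
    exact fun htop => h1 j (h3.trans htop)
  · refine Eq.trans (Finset.sum_congr rfl fun j _ => ?_)
      (h2.trans (Finset.sum_congr rfl fun j _ => ?_))
    · obtain ⟨e⟩ := coh_rTensor_equiv D hD N j
      exact congrArg (fun t : ℕ∞ => (-1 : ℤ) ^ j * (t.toNat : ℤ)) e.length_eq
    · obtain ⟨e⟩ := coh_equiv D hD j
      rw [eulerTor_congr e (LinearEquiv.refl R N)]

end reg

end Vale.Agent.P177.H335
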