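import Mathlib
import Vale.Agent.P177.H335.Final

/-!
The top Ext module with values in the ring has the same intersection multiplicities.
-/

namespace Vale.Agent.P177.H335

open CategoryTheory TensorProduct Function IsLocalRing Vale.Agent.P177 Vale.Agent.P177.H391
  RingTheory.Sequence

universe u

section general

variable {R : Type u} [CommRing R]

theorem AddLen.exact_zero {len : ∀ (X : Type u) [AddCommGroup X] [Module R X], ℕ∞}
    (h : AddLen len) {A B C : Type u} [AddCommGroup A] [Module R A] [AddCommGroup B] [Module R B]
    [AddCommGroup C] [Module R C] (f : A →ₗ[R] B) (g : B →ₗ[R] C) (hfg : Exact f g)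
    (hA : len A = 0) (hC : len C = 0) : len B = 0 := by
  have h1 := h.ker_add_range f
  have h2 := h.ker_add_range g
  have h3 := h _ _ _ (LinearMap.range g).subtype (LinearMap.range g).mkQ
    (Submodule.injective_subtype _) (Submodule.mkQ_surjective _)
    (LinearMap.exact_subtype_mkQ (LinearMap.range g))
  have h4 : len (LinearMap.range f) = 0 := (add_eq_zero.1 (h1.symm.trans hA)).2
  have h5 : len (LinearMap.range g) = 0 := (add_eq_zero.1 (h3.symm.trans hC)).1
  rw [h2, LinearMap.exact_iff.1 hfg, h4, h5, add_zero]

theorem subsingleton_of_exact {A B C : Type u} [AddCommGroup A] [Module R A] [AddCommGroup B]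
    [Module R B] [AddCommGroup C] [Module R C] (f : A →ₗ[R] B) (g : B →ₗ[R] C)
    (hfg : Exact f g) (hA : Subsingleton A) (hC : Subsingleton C) : Subsingleton B := by
  refine subsingleton_of_forall_eq 0 fun x => ?_
  obtain ⟨y, rfl⟩ := (hfg x).1 (Subsingleton.elim _ _)
  rw [Subsingleton.elim y 0, map_zero]

theorem ext_subsingleton_of_subsingleton (X N : Type u) [AddCommGroup X] [Module R X]
    [AddCommGroup N] [Module R N] [Subsingleton X] (j : ℕ) : Subsingleton (ExtM R j X N) := by
  refine subsingleton_of_forall_eq 0 fun c => ?_
  rw [← one_smul R c]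
  exact ext_smul_eq_zero_left (1 : R) (fun m => Subsingleton.elim _ _) j c

/-- Ext with values in the ring vanishes below the length of a regular sequence killing the
module. -/
theorem ext_eq_zero_of_killed [IsNoetherianRing R] (zs : List R) (hreg : IsWeaklyRegular R zs)
    (j : ℕ) : j < zs.length → ∀ (X : Type u) [AddCommGroup X] [Module R X] (_ : Module.Finite R X),
      (∀ z ∈ zs, ∀ x : X, z • x = 0) → Subsingleton (ExtM R j X R) := by
  induction j with
  | zero =>
    intro hj X _ _ _ hX
    obtain ⟨z, zs', rfl⟩ := List.exists_cons_of_length_pos hj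
    have hz : IsSMulRegular R z := ((isWeaklyRegular_cons_iff _ _ _).1 hreg).1
    have h1 : Subsingleton (X →ₗ[R] R) := by
      refine subsingleton_of_forall_eq 0 fun f => ?_
      ext x
      apply hz
      change z • f x = z • 0
      rw [← map_smul, hX z (by simp), map_zero, smul_zero]
    exact (extZero X R).injective.subsingleton
  | succ j ih =>
    intro hj X _ _ hX
    induction hX using IsNoetherianRing.induction_on_isQuotientEquivQuotientPrime R with
    | subsingleton X =>
      intro _
      exact ext_subsingleton_of_subsingleton X R _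
    | quotient X p e =>
      intro hX
      obtain ⟨e'⟩ := extCongr e R (j + 1)
      have hle : (Ideal.ofList zs • ⊤ : Submodule R R) ≤ p.asIdeal := by
        rw [smul_eq_mul, Ideal.mul_top, Ideal.ofList, Ideal.span_le]
        intro z hz
        have h1 : z ∈ Module.annihilator R X := Module.mem_annihilator.2 (hX z hz)
        rwa [e.annihilator_eq, Ideal.annihilator_quotient] at h1
      let q : (R ⧸ (Ideal.ofList zs • ⊤ : Submodule R R)) →ₗ[R] (R ⧸ p.asIdeal) :=
        Submodule.factor hle
      have hq : Surjective q := Submodule.factor_surjective hle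
      obtain ⟨a, b, δ, e0, e1, e2, e3⟩ := exists_extDelta (LinearMap.ker q).subtype q
        (Submodule.injective_subtype _) hq (LinearMap.exact_subtype_ker_map q) R
      have hK : Subsingleton (ExtM R j (LinearMap.ker q) R) := by
        refine ih (by omega) (LinearMap.ker q) inferInstance ?_
        intro z hz x
        apply Subtype.ext
        change z • x.1 = 0
        obtain ⟨r, hr⟩ := Submodule.mkQ_surjective _ x.1
        rw [← hr, ← map_smul]
        refine (Submodule.Quotient.mk_eq_zero _).2 ?_
        rw [smul_eq_mul, Ideal.mul_top, smul_eq_mul]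
        exact Ideal.mul_mem_right _ _ (Ideal.subset_span hz)
      have h1 := subsingleton_of_exact (δ j) (a (j + 1)) (e3 j) hK
        ((ext_ci zs hreg).1 (j + 1) (by omega))
      exact e'.symm.injective.subsingleton
    | exact X' X X'' f g hf hg hex h1 h3 =>
      intro hX
      obtain ⟨a, b, δ, e0, e1, e2, e3⟩ := exists_extDelta f g hf hg hex R
      refine subsingleton_of_exact (a (j + 1)) (b (j + 1)) (e1 (j + 1)) (h3 ?_) (h1 ?_)
      · intro z hz x
        obtain ⟨y, rfl⟩ := hg x
        rw [← map_smul, hX z hz, map_zero]
      · intro z hz x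
        apply hf
        rw [map_smul, hX z hz, map_zero]

end general

section reg

variable {R : Type u} [CommRing R] [IsRegularLocalRing R] {d : ℕ}

/-- Ext with values in the ring vanishes below the codimension. -/
theorem ext_below_codim (hd : ringKrullDim R = d) (X : Type u) [AddCommGroup X] [Module R X]
    [Module.Finite R X] (m : ℕ) (hX : Module.supportDim R X ≤ m) (j : ℕ) (hj : m + j < d) :
    Subsingleton (ExtM R j X R) := by
  suffices H : ∀ (X : Type u) [AddCommGroup X] [Module R X] (_ : Module.Finite R X),
      Module.supportDim R X ≤ m → Subsingleton (ExtM R j X R) from H X inferInstance hX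
  clear hX
  intro X _ _ hX
  induction hX using IsNoetherianRing.induction_on_isQuotientEquivQuotientPrime R with
  | subsingleton X =>
    intro _
    exact ext_subsingleton_of_subsingleton X R _
  | quotient X p e =>
    intro hdim
    obtain ⟨e'⟩ := extCongr e R j
    obtain ⟨zs, hmem, hreg, hlen, hht, hdimp, -⟩ := exists_ci hd p.asIdeal
    have h1 := Module.supportDim_eq_of_equiv e
    have h2 : Module.supportDim R (R ⧸ p.asIdeal) ≤ m := h1.symm.le.trans hdim
    rw [hdimp] at h2
    have h3 : d - zs.length ≤ m := by exact_mod_cast h2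
    have h4 : Subsingleton (ExtM R j (R ⧸ p.asIdeal) R) := by
      refine ext_eq_zero_of_killed zs hreg j (by omega) (R ⧸ p.asIdeal) inferInstance ?_
      intro z hz x
      have h5 : z ∈ Module.annihilator R (R ⧸ p.asIdeal) := by
        rw [Ideal.annihilator_quotient]
        exact hmem z hz
      exact Module.mem_annihilator.1 h5 x
    exact e'.symm.injective.subsingleton
  | exact X' X X'' f g hf hg hex h1 h3 =>
    intro hdim
    obtain ⟨a, b, δ, e0, e1, e2, e3⟩ := exists_extDelta f g hf hg hex R
    exact subsingleton_of_exact (a j) (b j) (e1 j)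
      (h3 ((Module.supportDim_le_of_surjective g hg).trans hdim))
      (h1 ((Module.supportDim_le_of_injective f hf).trans hdim))

/-- `Ext^j(X, R)` vanishes at the primes of height less than `j`. -/
theorem locLen_ext_zero (hd : ringKrullDim R = d) (i : ℕ) :
    ∀ j, d < j + i → ∀ (X : Type u) [AddCommGroup X] [Module R X] (_ : Module.Finite R X)
      (Q : PrimeSpectrum R), Q.asIdeal.height < j → locLen Q.asIdeal (ExtM R j X R) = 0 := by
  induction i with
  | zero =>
    intro j hj X _ _ _ Q _
    have := ext_vanish hd X R j (by omega)
    exact locLen_subsingleton _ _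
  | succ i ih =>
    intro j hj X _ _ hX Q hQ
    induction hX using IsNoetherianRing.induction_on_isQuotientEquivQuotientPrime R with
    | subsingleton X =>
      have := ext_subsingleton_of_subsingleton (R := R) X R j
      exact locLen_subsingleton _ _
    | quotient X p e =>
      obtain ⟨e'⟩ := extCongr e R j
      rw [← locLen_congr Q.asIdeal e']
      by_cases hpQ : p.asIdeal ≤ Q.asIdeal
      · obtain ⟨zs, hmem, hreg, hlen, hht, hdimp, hass⟩ := exists_ci hd p.asIdeal
        have hlt : zs.length < j := by
          have h1 : p.asIdeal.height ≤ Q.asIdeal.height := Ideal.height_mono hpQ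
          rw [hht] at h1
          exact_mod_cast lt_of_le_of_lt h1 hQ
        obtain ⟨-, u, hu⟩ := (isAssociatedPrime_iff_exists_injective_linearMap _ _).1 hass
        obtain ⟨a, b, δ, e0, e1, e2, e3⟩ := exists_extDelta u (LinearMap.range u).mkQ hu
          (Submodule.mkQ_surjective _) (LinearMap.exact_map_mkQ_range u) R
        refine (addLen_locLen Q.asIdeal).exact_zero (b j) (δ j) (e2 j) ?_ ?_
        · have := (ext_ci zs hreg).1 j (by omega)
          exact locLen_subsingleton _ _
        · exact ih (j + 1) (by omega) _ inferInstance Q (hQ.trans (by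
            exact_mod_cast Nat.lt_succ_self j))
      · obtain ⟨a, ha, haQ⟩ := SetLike.not_le_iff_exists.1 hpQ
        refine locLen_eq_zero Q.asIdeal _ a haQ (fun x => ext_smul_eq_zero_left a ?_ j x)
        intro m
        have h5 : a ∈ Module.annihilator R (R ⧸ p.asIdeal) := by
          rw [Ideal.annihilator_quotient]
          exact ha
        exact Module.mem_annihilator.1 h5 m
    | exact X' X X'' f g hf hg hex h1 h3 =>
      obtain ⟨a, b, δ, e0, e1, e2, e3⟩ := exists_extDelta f g hf hg hex R
      exact (addLen_locLen Q.asIdeal).exact_zero (a j) (b j) (e1 j) h3 h1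

/-- The dimension of `Ext^j(X, R)` is at most `d - j`. -/
theorem supportDim_ext_le_sub (hd : ringKrullDim R = d) (X : Type u) [AddCommGroup X] [Module R X]
    [Module.Finite R X] (j : ℕ) :
    Module.supportDim R (ExtM R j X R) ≤ ((d - j : ℕ) : WithBot ℕ∞) := by
  by_cases h : Subsingleton (ExtM R j X R)
  · rw [Module.supportDim_eq_bot_of_subsingleton R (ExtM R j X R)]
    exact bot_le
  rw [not_subsingleton_iff_nontrivial] at h
  have := ext_finite (R := R) j X R
  obtain ⟨x, hx⟩ := exists_nat_supportDim d hd (ExtM R j X R)
  obtain ⟨p, P, hp, hP, hle⟩ := exists_prime_of_le_supportDim hd (ExtM R j X R) x hx.ge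
  rw [Module.support_eq_zeroLocus] at hp
  have h1 := locLen_ne_zero p.asIdeal (ExtM R j X R) hp P hP
  have h2 : ¬ p.asIdeal.height < j := fun h =>
    h1 (locLen_ext_zero hd (d + 1) j (by omega) X inferInstance p h)
  rw [hP, not_lt] at h2
  have h3 : j ≤ P := by exact_mod_cast h2
  rw [hx]
  have h4 : x ≤ d - j := by omega
  exact_mod_cast h4

/-- **Duality.** The module `Ext^c(M, R)`, `c` the codimension of `M`, has the same intersection
multiplicities as `M`. -/
theorem duality (hd : ringKrullDim R = d) (m : ℕ) (M N : Type u) [AddCommGroup M]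
    [Module R M] [Module.Finite R M] [AddCommGroup N] [Module R N] [Module.Finite R N]
    (hM : Module.supportDim R M = m) (hlen : Module.length R (M ⊗[R] N) ≠ ⊤) :
    eulerTor R (d + 1) (ExtM R (d - m) M R) N = eulerTor R (d + 1) M N := by
  have hlenE : ∀ j, Module.length R (ExtM R j M R ⊗[R] N) ≠ ⊤ := by
    intro j
    have := ext_finite (R := R) j M R
    exact length_tensor_ne_top_of_annihilator_le M _ N hlen (annihilator_le_ext j M R)
  have hfin : ∀ j, Module.Finite R (ExtM R j M R) := fun j => ext_finite j M R
  by_cases hN : Subsingleton N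
  · rw [eulerTor_symm, eulerTor_subsingleton' N _ hN, eulerTor_symm,
      eulerTor_subsingleton' N _ hN]
  rw [not_subsingleton_iff_nontrivial] at hN
  obtain ⟨n, hn⟩ := exists_nat_supportDim d hd N
  have hle := dim_le hd M N hlen
  rw [hM, hn] at hle
  have hle' : m + n ≤ d := by exact_mod_cast hle
  rcases hle'.lt_or_eq with hlt | heq
  · have h1 : Module.supportDim R M + Module.supportDim R N < d := by
      rw [hM, hn]
      exact_mod_cast hlt
    have h2 : Module.supportDim R (ExtM R (d - m) M R) + Module.supportDim R N < d := by
      have h3 := supportDim_ext_le M (d - m) m hM.le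
      refine lt_of_le_of_lt (add_le_add_left h3 _) ?_
      rw [hn]
      exact_mod_cast hlt
    rw [vanish hd (nonNeg hd) M N hlen h1, vanish hd (nonNeg hd) _ N (hlenE _) h2]
  · have h1 := eulerExt_eq hd n M N hn hlen
    rw [eulerExt_eq_sum hd M N hlen, Finset.sum_eq_single (d - m)] at h1
    · have h2 : d - m = n := by omega
      rw [h2] at h1 ⊢
      exact mul_left_cancel₀ (pow_ne_zero n (by norm_num : (-1 : ℤ) ≠ 0)) h1
    · intro j hj hne
      rcases lt_or_gt_of_ne hne with hlt | hgt
      · have := ext_below_codim hd M m hM.le j (by omega)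
        rw [eulerTor_subsingleton' _ N this, mul_zero]
      · rw [vanish hd (nonNeg hd) _ N (hlenE _), mul_zero]
        refine lt_of_le_of_lt (add_le_add_left (supportDim_ext_le_sub hd M j) _) ?_
        rw [hn]
        have h3 := Finset.mem_range.1 hj
        have h4 : d - j + n < d := by omega
        exact_mod_cast h4
    · intro h
      exact absurd (Finset.mem_range.2 (by omega)) h

end reg

end Vale.Agent.P177.H335
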