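import Mathlib
import Vale.Agent.P177.H335.Complex
import Vale.Agent.P177.H335.Duality

/-!
Symmetry of the Euler form.
-/

namespace Vale.Agent.P177.H335

open CategoryTheory TensorProduct Function IsLocalRing Vale.Agent.P177 Vale.Agent.P177.H391

universe u

theorem eulerExt_left_zero {R : Type u} [CommRing R] (n : ℕ) (X N : Type u) [AddCommGroup X]
    [Module R X] [AddCommGroup N] [Module R N] [Subsingleton X] : eulerExt R n X N = 0 := by
  unfold eulerExt
  refine Finset.sum_eq_zero fun j _ => ?_
  have : Subsingleton (ExtM R j X N) := ext_subsingleton_of_subsingleton X N j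
  rw [Module.length_eq_zero]
  simp

theorem eulerExt_right_zero {R : Type u} [CommRing R] (n : ℕ) (X N : Type u) [AddCommGroup X]
    [Module R X] [AddCommGroup N] [Module R N] [Subsingleton N] : eulerExt R n X N = 0 := by
  unfold eulerExt
  refine Finset.sum_eq_zero fun j _ => ?_
  have : Subsingleton (ExtM R j X N) := by
    refine subsingleton_of_forall_eq 0 fun c => ?_
    rw [← one_smul R c]
    exact ext_smul_eq_zero_right (1 : R) (fun m => Subsingleton.elim _ _) j c
  rw [Module.length_eq_zero]
  simp

variable {R : Type u} [CommRing R] [IsRegularLocalRing R] {d : ℕ}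

theorem eulerExt_symm (hd : ringKrullDim R = d) (M N : Type u) [AddCommGroup M]
    [Module R M] [Module.Finite R M] [AddCommGroup N] [Module R N] [Module.Finite R N]
    (hlen : Module.length R (M ⊗[R] N) ≠ ⊤) :
    eulerExt R (d + 1) N M = (-1) ^ d * eulerExt R (d + 1) M N := by
  have hlen' : Module.length R (N ⊗[R] M) ≠ ⊤ := by
    rwa [(TensorProduct.comm R N M).length_eq]
  by_cases hM : Subsingleton M
  · rw [eulerExt_left_zero (d + 1) M N, eulerExt_right_zero (d + 1) N M, mul_zero]
  by_cases hN : Subsingleton N
  · rw [eulerExt_left_zero (d + 1) N M, eulerExt_right_zero (d + 1) M N, mul_zero]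
  rw [not_subsingleton_iff_nontrivial] at hM hN
  obtain ⟨m, hm⟩ := exists_nat_supportDim d hd M
  obtain ⟨n, hn⟩ := exists_nat_supportDim d hd N
  rw [eulerExt_eq hd m N M hm hlen', eulerExt_eq hd n M N hn hlen, eulerTor_symm N M]
  have hle := dim_le hd M N hlen
  rw [hm, hn] at hle
  have hle' : m + n ≤ d := by exact_mod_cast hle
  rcases hle'.lt_or_eq with hlt | heq
  · have h1 : Module.supportDim R M + Module.supportDim R N < d := by
      rw [hm, hn]
      exact_mod_cast hlt
    rw [vanish hd (nonNeg hd) M N hlen h1, mul_zero, mul_zero, mul_zero]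
  · have h2 : (-1 : ℤ) ^ n * (-1) ^ n = 1 := by rw [← mul_pow]; simp
    rw [← heq, pow_add]
    linear_combination -(-1 : ℤ) ^ m * eulerTor R (m + n + 1) M N * h2

end Vale.Agent.P177.H335
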